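import Vale.Agent.P100.Negative.Homog

/-!
# P100, `T < 0`: the certificate polynomial is positive on a box

Variables: `E = 2 f - 1`, `h = 1 / (S + 4)`, and `t`, `s`, `m` which give `-ξ (1 - 4 h) = X h`,
`X = t (2 + 19 h)`, and the two gaps `f - w1 = E h R`, `w1 - ζ = E h (2 s - R)`,
`R = 2 s m (21 - 15 E + 30 h + 70 E h)`.
-/

namespace Vale.Agent.P100.Negative

namespace Ex

/-- A sum. -/
abbrev a2 (x y : Ex) : Ex := .add x y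

/-- A product. -/
abbrev m2 (x y : Ex) : Ex := .mul x y

/-- A difference. -/
abbrev s2 (x y : Ex) : Ex := .add x (.mul (.cst (-1)) y)

/-- A multiple. -/
abbrev k2 (c : ℤ) (y : Ex) : Ex := .mul (.cst c) y

/-- `1 - 4 h`. -/
def cA : Ex := s2 (.cst 1) (k2 4 .vh)
/-- `2 f`. -/
def cF : Ex := a2 (.cst 1) .vE
/-- `2 g`. -/
def cG : Ex := s2 (.cst 1) .vE
/-- `4 f g`. -/
def cd : Ex := m2 cF cG
/-- `X`. -/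
def cX : Ex := m2 .vt (a2 (.cst 2) (k2 19 .vh))
/-- `R`. -/
def cR : Ex := k2 2 (m2 (m2 .vs .vm) (a2 (s2 (.cst 21) (k2 15 .vE)) (m2 .vh (a2 (.cst 30) (k2 70 .vE)))))
/-- `2 w₁`. -/
def cW1 : Ex := s2 cF (k2 2 (m2 (m2 .vE .vh) cR))
/-- `2 ζ`. -/
def cZ : Ex := s2 cF (k2 4 (m2 (m2 .vE .vh) .vs))
/-- `2 w`. -/
def cW : Ex := a2 (a2 cF (m2 .vE cG)) (k2 2 (m2 .vE (a2 (.cst 1) (m2 cX .vh))))
/-- `2 e`. -/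
def ce : Ex := s2 (a2 cW1 cZ) (.cst 2)
/-- `2 v`. -/
def cv : Ex := s2 cW cW1
/-- `2 h k`. -/
def ck : Ex := m2 cA (s2 cZ cG)
/-- `4 h l`. -/
def cl : Ex :=
  s2 (s2 (s2 (k2 2 (m2 ce (s2 (s2 cA (m2 cd .vh)) (m2 (s2 cA .vh) cZ))))
    (k2 2 (m2 ck (s2 (.cst 1) cZ))))
    (k2 2 (m2 .vh (m2 ce (s2 (a2 cW cZ) (.cst 2)))))) (k2 2 (m2 cv ck))
/-- `2 h` times the drift term. -/
def cJ : Ex :=
  m2 (m2 (m2 (m2 .vE .vh) (s2 (k2 2 .vs) cR)) .vE)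
    (s2 (k2 2 (m2 .vh (a2 cF (m2 (m2 cX .vh) cW1))))
      (k2 2 (m2 (m2 (m2 cA cX) .vh) (m2 (m2 .vE .vh) cR))))
/-- `8 h` times `w₁ L`. -/
def cL : Ex := a2 (m2 cW1 cl) (k2 4 cJ)
/-- `2 h` times `β - α`, `β - 2 α`, `α` are built from these. -/
def cT : Ex :=
  s2 (m2 (a2 (.cst 2) ce)
    (a2 (s2 (m2 (s2 cG cF) cA) (k2 4 .vh)) (k2 2 (m2 cd .vh))))
    (k2 2 (m2 (s2 (.cst 1) (k2 3 .vh))
      (a2 (k2 2 cZ) (m2 cW (s2 (a2 (.cst 2) ce) (k2 2 cZ))))))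
/-- `16 h ^ 2` times `4 N (1 + e) π`. -/
def cP : Ex :=
  s2 (k2 4 (m2 (m2 (s2 (.cst 1) (k2 2 .vh)) (a2 (.cst 2) ce))
    (s2 (m2 (s2 (a2 (m2 cF cA) (k2 4 .vh)) (k2 2 (m2 cd .vh))) (m2 cZ (s2 (.cst 2) cW)))
      (m2 (a2 (s2 (s2 (m2 cG cA) (k2 2 (m2 cF cA))) (k2 4 .vh)) (k2 2 (m2 cd .vh))) (m2 cW cW1)))))
    (m2 cT cT)
/-- `128 h ^ 2` times the margin, less a multiple of `E ^ 4 h ^ 2`. -/
def cH : Ex :=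
  s2 (s2 (m2 (m2 (m2 cW1 ce) cv) cP) (m2 (a2 (.cst 2) ce) (m2 cL cL)))
    (m2 (m2 (m2 .vE .vE) (m2 .vE .vE)) (m2 .vh .vh))

end Ex

/-- The box: `E < 1`, `h < 1/7`, `t < 1`, `2/3 < s ≤ 1`, `m < 1/30`. -/
def box : Box := ⟨⟨0, 1, 1⟩, ⟨0, 1, 7⟩, ⟨0, 1, 1⟩, ⟨3, 2, 3⟩, ⟨0, 1, 30⟩⟩

/-- The bases and the numbers of digits. -/
def kBase : Base :=
  ⟨⟨2 ^ 522240, 2 ^ 30720, 2 ^ 7680, 2 ^ 960, 2 ^ 160⟩, ⟨15, 17, 4, 8, 6⟩⟩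

theorem cH_chk : chk kBase (Ex.cH.hom box) = true := by decide +kernel

theorem cH_nonneg {τ : Pt} (hE : 0 ≤ τ.E) (hh : 0 ≤ τ.h) (ht : 0 ≤ τ.t) (hs : 0 ≤ τ.s)
    (hm : 0 ≤ τ.m) : 0 ≤ Ex.cH.val (box.map τ) :=
  hom_sound cH_chk (by simp [box]) τ hE hh ht hs hm

end Vale.Agent.P100.Negative
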