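import Vale.Agent.P100.Negative.Kron

/-!
# P100, `T < 0`: expressions in five variables and the test of their coefficients

The coefficients of an expression are not expanded: its value at powers of two is one integer, and
the signed digits of that integer are the coefficients.
-/

namespace Vale.Agent.P100.Negative

open Vale.Agent.P098.Five

/-- Polynomials in five variables. -/
abbrev P5 := List (List (List (List (List ℤ))))

/-- The point of evaluation. -/
structure Pt where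
  E : ℝ
  h : ℝ
  t : ℝ
  s : ℝ
  m : ℝ

/-- The value of a polynomial. -/
def ev (v : Pt) (p : P5) : ℝ :=
  monE (monE (monE (monE (monE (fun a : ℤ => (a : ℝ)) v.m) v.s) v.t) v.h) v.E p

theorem isLin_ev (v : Pt) : IsLin (ev v) :=
  ((((isLin_int.mon v.m).mon v.s).mon v.t).mon v.h).mon v.E

/-- A product. -/
def pm (p q : P5) : P5 := pmul (pmul (pmul (pmul (pmul (· * ·))))) p q

theorem ev_pm (v : Pt) (p q : P5) : ev v (pm p q) = ev v p * ev v q :=
  monE_pmul (((isLin_int.mon v.m).mon v.s).mon v.t |>.mon v.h)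
    (monE_pmul ((isLin_int.mon v.m).mon v.s |>.mon v.t)
      (monE_pmul ((isLin_int.mon v.m).mon v.s)
        (monE_pmul (isLin_int.mon v.m)
          (monE_pmul isLin_int (fun a b => Int.cast_mul a b) v.m) v.s) v.t) v.h) v.E p q

/-- Expressions in the five variables. -/
inductive Ex
  | cst (c : ℤ)
  | vE
  | vh
  | vt
  | vs
  | vm
  | add (a b : Ex)
  | mul (a b : Ex)

/-- The value of an expression. -/
def Ex.val (v : Pt) : Ex → ℝ
  | .cst c => c
  | .vE => v.E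
  | .vh => v.h
  | .vt => v.t
  | .vs => v.s
  | .vm => v.m
  | .add a b => a.val v + b.val v
  | .mul a b => a.val v * b.val v

/-- The expanded polynomial of an expression. -/
def Ex.poly : Ex → P5
  | .cst c => [[[[[c]]]]]
  | .vE => [[], [[[[1]]]]]
  | .vh => [[[], [[[1]]]]]
  | .vt => [[[[], [[1]]]]]
  | .vs => [[[[[], [1]]]]]
  | .vm => [[[[[0, 1]]]]]
  | .add a b => Mdl.add a.poly b.poly
  | .mul a b => pm a.poly b.poly

theorem Ex.ev_poly (v : Pt) : ∀ e : Ex, ev v e.poly = e.val v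
  | .cst c => by simp [Ex.poly, Ex.val, ev, monE]
  | .vE => by simp [Ex.poly, Ex.val, ev, monE]
  | .vh => by simp [Ex.poly, Ex.val, ev, monE]
  | .vt => by simp [Ex.poly, Ex.val, ev, monE]
  | .vs => by simp [Ex.poly, Ex.val, ev, monE]
  | .vm => by simp [Ex.poly, Ex.val, ev, monE]
  | .add a b => by
      rw [Ex.poly, (isLin_ev v).add, Ex.ev_poly v a, Ex.ev_poly v b]; rfl
  | .mul a b => by rw [Ex.poly, ev_pm, Ex.ev_poly v a, Ex.ev_poly v b]; rfl

/-- The bound by absolute values of the coefficients. -/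
def nrm (v : Pt) (p : P5) : ℝ :=
  monE (monE (monE (monE (monE (fun a : ℤ => |(a : ℝ)|) v.m) v.s) v.t) v.h) v.E p

/-- A point of natural numbers. -/
structure NPt where
  E : ℕ
  h : ℕ
  t : ℕ
  s : ℕ
  m : ℕ

/-- The same point among the reals. -/
def NPt.pt (v : NPt) : Pt := ⟨v.E, v.h, v.t, v.s, v.m⟩

/-- The integer value of an expression. -/
def Ex.valI (v : NPt) : Ex → ℤ
  | .cst c => c
  | .vE => (v.E : ℤ)
  | .vh => (v.h : ℤ)
  | .vt => (v.t : ℤ)
  | .vs => (v.s : ℤ)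
  | .vm => (v.m : ℤ)
  | .add a b => a.valI v + b.valI v
  | .mul a b => a.valI v * b.valI v

/-- The value with all constants replaced by their absolute values. -/
def Ex.valA (v : NPt) : Ex → ℕ
  | .cst c => c.natAbs
  | .vE => v.E
  | .vh => v.h
  | .vt => v.t
  | .vs => v.s
  | .vm => v.m
  | .add a b => a.valA v + b.valA v
  | .mul a b => a.valA v * b.valA v

theorem Ex.val_pt (v : NPt) : ∀ e : Ex, e.val v.pt = (e.valI v : ℤ)
  | .cst c => rfl
  | .vE => by simp [Ex.val, Ex.valI, NPt.pt]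
  | .vh => by simp [Ex.val, Ex.valI, NPt.pt]
  | .vt => by simp [Ex.val, Ex.valI, NPt.pt]
  | .vs => by simp [Ex.val, Ex.valI, NPt.pt]
  | .vm => by simp [Ex.val, Ex.valI, NPt.pt]
  | .add a b => by simp [Ex.val, Ex.valI, Ex.val_pt v a, Ex.val_pt v b]
  | .mul a b => by simp [Ex.val, Ex.valI, Ex.val_pt v a, Ex.val_pt v b]

theorem Ex.nrm_le (v : NPt) : ∀ e : Ex, nrm v.pt e.poly ≤ (e.valA v : ℕ)
  | .cst c => by simp [Ex.poly, Ex.valA, nrm, monE, Nat.cast_natAbs]
  | .vE => by simp [Ex.poly, Ex.valA, nrm, monE, NPt.pt]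
  | .vh => by simp [Ex.poly, Ex.valA, nrm, monE, NPt.pt]
  | .vt => by simp [Ex.poly, Ex.valA, nrm, monE, NPt.pt]
  | .vs => by simp [Ex.poly, Ex.valA, nrm, monE, NPt.pt]
  | .vm => by simp [Ex.poly, Ex.valA, nrm, monE, NPt.pt]
  | .add a b => by
      have h1 := isNrm_int.mon (Nat.cast_nonneg v.m)
      have h2 := (((h1.mon (Nat.cast_nonneg v.s)).mon (Nat.cast_nonneg v.t)).mon
        (Nat.cast_nonneg v.h)).mon (Nat.cast_nonneg v.E)
      refine (h2.add a.poly b.poly).trans ?_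
      simp only [Ex.valA, Nat.cast_add]
      exact add_le_add (Ex.nrm_le v a) (Ex.nrm_le v b)
  | .mul a b => by
      have h1 := isNrm_int.mon (Nat.cast_nonneg v.m)
      have h2 := h1.mon (Nat.cast_nonneg v.s)
      have h3 := h2.mon (Nat.cast_nonneg v.t)
      have h4 := h3.mon (Nat.cast_nonneg v.h)
      have key : nrm v.pt (pm a.poly b.poly) ≤ nrm v.pt a.poly * nrm v.pt b.poly :=
        monE_pmul_le h4 (monE_pmul_le h3 (monE_pmul_le h2 (monE_pmul_le h1
          (monE_pmul_le isNrm_int (fun x y => le_of_eq (by simp [abs_mul]))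
            (Nat.cast_nonneg v.m)) (Nat.cast_nonneg v.s)) (Nat.cast_nonneg v.t))
            (Nat.cast_nonneg v.h)) (Nat.cast_nonneg v.E) _ _
      refine key.trans ?_
      simp only [Ex.valA, Nat.cast_mul]
      exact mul_le_mul (Ex.nrm_le v a) (Ex.nrm_le v b) ((h4.mon (Nat.cast_nonneg v.E)).nonneg _)
        (Nat.cast_nonneg _)

/-- The base and the number of digits on the five levels. -/
structure Base where
  B : NPt
  n : NPt

/-- The test that no coefficient of the expanded expression is negative. -/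
def chk (b : Base) (e : Ex) : Bool :=
  let B := b.B
  let n := b.n
  decide (2 * e.valA ⟨1, B.h, B.t, B.s, B.m⟩ < B.E) &&
  decide (2 * e.valA ⟨1, 1, B.t, B.s, B.m⟩ < B.h) &&
  decide (2 * e.valA ⟨1, 1, 1, B.s, B.m⟩ < B.t) &&
  decide (2 * e.valA ⟨1, 1, 1, 1, B.m⟩ < B.s) &&
  decide (2 * e.valA ⟨1, 1, 1, 1, 1⟩ < B.m) &&
  decide (0 ≤ e.valI B) &&
  dig B.E (dig B.h (dig B.t (dig B.s (dig B.m (fun _ => true) n.m) n.s) n.t) n.h) n.E
    (e.valI B).toNat

theorem exists_int_monE {α : Type} {g : α → ℝ} (hg : ∀ a, ∃ z : ℤ, g a = z) (B : ℕ) :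
    ∀ p : List α, ∃ w : ℤ, monE g B p = w
  | [] => ⟨0, by simp [monE]⟩
  | a :: p => by
      obtain ⟨u, hu⟩ := hg a
      obtain ⟨w, hw⟩ := exists_int_monE hg B p
      exact ⟨u + B * w, by simp [monE, hu, hw]⟩

theorem monE_nonneg_mem {α : Type} {g : α → ℝ} {x : ℝ} (hx : 0 ≤ x) :
    ∀ p : List α, (∀ a ∈ p, 0 ≤ g a) → 0 ≤ monE g x p
  | [], _ => le_rfl
  | a :: p, h => add_nonneg (h a (by simp))
      (mul_nonneg hx (monE_nonneg_mem hx p fun b hb => h b (by simp [hb])))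

theorem chk_sound {b : Base} {e : Ex} (h : chk b e = true) (w : Pt) (hE : 0 ≤ w.E) (hh : 0 ≤ w.h)
    (ht : 0 ≤ w.t) (hs : 0 ≤ w.s) (hm : 0 ≤ w.m) : 0 ≤ e.val w := by
  obtain ⟨B, n⟩ := b
  simp only [chk, Bool.and_eq_true, decide_eq_true_eq] at h
  obtain ⟨⟨⟨⟨⟨⟨bE, bh⟩, bt⟩, bs⟩, bm⟩, h0⟩, hd⟩ := h
  let g0 : ℤ → ℝ := fun a => (a : ℝ)
  let A0 : ℤ → ℝ := fun a => |(a : ℝ)|
  let g1 := monE g0 (B.m : ℝ)
  let g2 := monE g1 (B.s : ℝ)
  let g3 := monE g2 (B.t : ℝ)
  let g4 := monE g3 (B.h : ℝ)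
  let A1 := monE A0 (B.m : ℝ)
  let A2 := monE A1 (B.s : ℝ)
  let A3 := monE A2 (B.t : ℝ)
  let A4 := monE A3 (B.h : ℝ)
  have i0 : ∀ a, ∃ z : ℤ, g0 a = z := fun a => ⟨a, rfl⟩
  have i1 := exists_int_monE i0 B.m
  have i2 := exists_int_monE i1 B.s
  have i3 := exists_int_monE i2 B.t
  have i4 := exists_int_monE i3 B.h
  have a1 : ∀ p, |g1 p| ≤ A1 p := abs_monE_le (fun a => le_rfl) (Nat.cast_nonneg _)
  have a2 : ∀ p, |g2 p| ≤ A2 p := abs_monE_le a1 (Nat.cast_nonneg _)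
  have a3 : ∀ p, |g3 p| ≤ A3 p := abs_monE_le a2 (Nat.cast_nonneg _)
  have a4 : ∀ p, |g4 p| ≤ A4 p := abs_monE_le a3 (Nat.cast_nonneg _)
  have q0 : ∀ a, 0 ≤ A0 a := fun a => abs_nonneg _
  have one : (0 : ℝ) ≤ 1 := zero_le_one
  have r1 := monE_nonneg' q0 (Nat.cast_nonneg B.m)
  have r2 := monE_nonneg' r1 (Nat.cast_nonneg B.s)
  have r3 := monE_nonneg' r2 (Nat.cast_nonneg B.t)
  have r4 := monE_nonneg' r3 (Nat.cast_nonneg B.h)
  have o0 := monE_nonneg' q0 one
  have o1 := monE_nonneg' r1 one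
  have o2 := monE_nonneg' r2 one
  have o3 := monE_nonneg' r3 one
  have o01 := monE_nonneg' o0 one
  have o11 := monE_nonneg' o1 one
  have o21 := monE_nonneg' o2 one
  have o011 := monE_nonneg' o01 one
  have o111 := monE_nonneg' o11 one
  have pos : ∀ {k N : ℕ}, 2 * k < N → 0 < N := fun hk => by omega
  have cast2 : ∀ {k N : ℕ}, 2 * k < N → 2 * (k : ℝ) < N := fun hk => by exact_mod_cast hk
  rw [← Ex.ev_poly]
  refine monE_nonneg_mem hE _ fun a ha => ?_
  obtain ⟨dE, hgE, okE⟩ := dig_sound (g := g4) (pos bE) i4 e.poly n.E _ (fun x hx => by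
      refine lt_of_le_of_lt ?_ (cast2 bE)
      gcongr
      exact (a4 x).trans ((le_monE_one r4 _ x hx).trans
        ((Ex.nrm_le ⟨1, B.h, B.t, B.s, B.m⟩ e).trans_eq' (by simp [nrm, NPt.pt, A0]))))
    hd (by
      have h1 : monE g4 (B.E : ℝ) e.poly = ev B.pt e.poly := rfl
      rw [h1, Ex.ev_poly, Ex.val_pt]
      exact_mod_cast (Int.toNat_of_nonneg h0).symm) a ha
  refine monE_nonneg_mem hh _ fun c hc => ?_
  obtain ⟨dh, hgh, okh⟩ := dig_sound (g := g3) (pos bh) i3 a n.h _ (fun x hx => by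
      refine lt_of_le_of_lt ?_ (cast2 bh)
      gcongr
      refine (a3 x).trans (((le_monE_one r3 _ x hx).trans (le_monE_one o3 _ a ha)).trans ?_)
      exact (Ex.nrm_le ⟨1, 1, B.t, B.s, B.m⟩ e).trans_eq' (by simp [nrm, NPt.pt, A0]))
    okE (by exact hgE) c hc
  refine monE_nonneg_mem ht _ fun d hdm => ?_
  obtain ⟨dt, hgt, okt⟩ := dig_sound (g := g2) (pos bt) i2 c n.t _ (fun x hx => by
      refine lt_of_le_of_lt ?_ (cast2 bt)
      gcongr
      refine (a2 x).trans (((le_monE_one r2 _ x hx).trans ((le_monE_one o2 _ c hc).trans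
        (le_monE_one o21 _ a ha))).trans ?_)
      exact (Ex.nrm_le ⟨1, 1, 1, B.s, B.m⟩ e).trans_eq' (by simp [nrm, NPt.pt, A0]))
    okh (by exact hgh) d hdm
  refine monE_nonneg_mem hs _ fun k hk => ?_
  obtain ⟨ds, hgs, oks⟩ := dig_sound (g := g1) (pos bs) i1 d n.s _ (fun x hx => by
      refine lt_of_le_of_lt ?_ (cast2 bs)
      gcongr
      refine (a1 x).trans (((le_monE_one r1 _ x hx).trans ((le_monE_one o1 _ d hdm).trans
        ((le_monE_one o11 _ c hc).trans (le_monE_one o111 _ a ha)))).trans ?_)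
      exact (Ex.nrm_le ⟨1, 1, 1, 1, B.m⟩ e).trans_eq' (by simp [nrm, NPt.pt, A0]))
    okt (by exact hgt) k hk
  refine monE_nonneg_mem hm _ fun z hz => ?_
  have o0111 := monE_nonneg' o011 one
  obtain ⟨dm, hgm, -⟩ := dig_sound (g := g0) (pos bm) i0 k n.m _ (fun x hx => by
      refine lt_of_le_of_lt ?_ (cast2 bm)
      gcongr
      refine ((le_monE_one q0 _ x hx).trans ((le_monE_one o0 _ k hk).trans
        ((le_monE_one o01 _ d hdm).trans ((le_monE_one o011 _ c hc).trans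
          (le_monE_one o0111 _ a ha))))).trans ?_
      exact (Ex.nrm_le ⟨1, 1, 1, 1, 1⟩ e).trans_eq' (by simp [nrm, NPt.pt, A0]))
    oks (by exact hgs) z hz
  change (0 : ℝ) ≤ (z : ℤ)
  rw [show ((z : ℤ) : ℝ) = dm from hgm]
  exact Nat.cast_nonneg _

end Vale.Agent.P100.Negative
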