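import Vale.Agent.P100.Negative.Check

/-!
# P100, `T < 0`: a box as the image of the nonnegative orthant

Each variable runs through `(a + b τ) / (c (1 + τ))`, `τ ≥ 0`; the cleared expression is tested.
-/

namespace Vale.Agent.P100.Negative

/-- An end map: `(a + b τ) / (c (1 + τ))`. -/
structure Ax where
  a : ℤ
  b : ℤ
  c : ℤ

/-- The five maps. -/
structure Box where
  E : Ax
  h : Ax
  t : Ax
  s : Ax
  m : Ax

/-- The degrees in the five variables. -/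
structure Deg where
  E : ℕ
  h : ℕ
  t : ℕ
  s : ℕ
  m : ℕ

/-- The degree bound of an expression. -/
def Ex.deg : Ex → Deg
  | .cst _ => ⟨0, 0, 0, 0, 0⟩
  | .vE => ⟨1, 0, 0, 0, 0⟩
  | .vh => ⟨0, 1, 0, 0, 0⟩
  | .vt => ⟨0, 0, 1, 0, 0⟩
  | .vs => ⟨0, 0, 0, 1, 0⟩
  | .vm => ⟨0, 0, 0, 0, 1⟩
  | .add x y => ⟨max x.deg.E y.deg.E, max x.deg.h y.deg.h, max x.deg.t y.deg.t,
      max x.deg.s y.deg.s, max x.deg.m y.deg.m⟩
  | .mul x y => ⟨x.deg.E + y.deg.E, x.deg.h + y.deg.h, x.deg.t + y.deg.t, x.deg.s + y.deg.s,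
      x.deg.m + y.deg.m⟩

/-- A power. -/
def Ex.powN (x : Ex) : ℕ → Ex
  | 0 => .cst 1
  | n + 1 => .mul x (x.powN n)

/-- The denominator of an axis. -/
def Ax.den (a : Ax) (v : Ex) : Ex := .mul (.cst a.c) (.add (.cst 1) v)

/-- The numerator of an axis. -/
def Ax.num (a : Ax) (v : Ex) : Ex := .add (.cst a.a) (.mul (.cst a.b) v)

/-- Raising from degree `x` to degree `d`. -/
def Box.pad (B : Box) (d x : Deg) : Ex :=
  .mul (.mul (.mul (.mul ((B.E.den .vE).powN (d.E - x.E)) ((B.h.den .vh).powN (d.h - x.h)))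
    ((B.t.den .vt).powN (d.t - x.t))) ((B.s.den .vs).powN (d.s - x.s)))
    ((B.m.den .vm).powN (d.m - x.m))

/-- The cleared expression. -/
def Ex.hom (B : Box) : Ex → Ex
  | .cst c => .cst c
  | .vE => B.E.num .vE
  | .vh => B.h.num .vh
  | .vt => B.t.num .vt
  | .vs => B.s.num .vs
  | .vm => B.m.num .vm
  | .add x y => .add (.mul (x.hom B) (B.pad (Ex.add x y).deg x.deg))
      (.mul (y.hom B) (B.pad (Ex.add x y).deg y.deg))
  | .mul x y => .mul (x.hom B) (y.hom B)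

/-- The map of an axis. -/
noncomputable def Ax.map (a : Ax) (τ : ℝ) : ℝ := (a.a + a.b * τ) / (a.c * (1 + τ))

/-- The point of the box. -/
noncomputable def Box.map (B : Box) (τ : Pt) : Pt :=
  ⟨B.E.map τ.E, B.h.map τ.h, B.t.map τ.t, B.s.map τ.s, B.m.map τ.m⟩

/-- The common denominator. -/
def Box.scale (B : Box) (d : Deg) (τ : Pt) : ℝ :=
  ((B.E.c : ℝ) * (1 + τ.E)) ^ d.E * ((B.h.c : ℝ) * (1 + τ.h)) ^ d.h * ((B.t.c : ℝ) * (1 + τ.t)) ^ d.t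
    * ((B.s.c : ℝ) * (1 + τ.s)) ^ d.s * ((B.m.c : ℝ) * (1 + τ.m)) ^ d.m

theorem Ex.val_powN (v : Pt) (x : Ex) : ∀ n, (x.powN n).val v = x.val v ^ n
  | 0 => by simp [Ex.powN, Ex.val]
  | n + 1 => by simp [Ex.powN, Ex.val, Ex.val_powN v x n, pow_succ']

theorem Ax.val_den (a : Ax) (v : Pt) (x : Ex) : (a.den x).val v = a.c * (1 + x.val v) := by
  simp [Ax.den, Ex.val]

theorem Ax.num_eq {a : Ax} {τ : ℝ} (hc : (0 : ℝ) < a.c) (hτ : 0 ≤ τ) :
    (a.a : ℝ) + a.b * τ = (a.c * (1 + τ)) * a.map τ := by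
  unfold Ax.map; field_simp

theorem Box.pad_scale (B : Box) (τ : Pt) {d x : Deg} (hE : x.E ≤ d.E) (hh : x.h ≤ d.h)
    (ht : x.t ≤ d.t) (hs : x.s ≤ d.s) (hm : x.m ≤ d.m) :
    (B.pad d x).val τ * B.scale x τ = B.scale d τ := by
  simp only [Box.pad, Ex.val, Ex.val_powN, Ax.val_den, Box.scale]
  rw [← pow_sub_mul_pow ((B.E.c : ℝ) * (1 + τ.E)) hE, ← pow_sub_mul_pow ((B.h.c : ℝ) * (1 + τ.h)) hh,
    ← pow_sub_mul_pow ((B.t.c : ℝ) * (1 + τ.t)) ht, ← pow_sub_mul_pow ((B.s.c : ℝ) * (1 + τ.s)) hs,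
    ← pow_sub_mul_pow ((B.m.c : ℝ) * (1 + τ.m)) hm]
  ring

theorem Ex.val_hom (B : Box) (τ : Pt) (hc : 0 < B.E.c ∧ 0 < B.h.c ∧ 0 < B.t.c ∧ 0 < B.s.c ∧ 0 < B.m.c)
    (hE : 0 ≤ τ.E) (hh : 0 ≤ τ.h) (ht : 0 ≤ τ.t) (hs : 0 ≤ τ.s) (hm : 0 ≤ τ.m) :
    ∀ e : Ex, (e.hom B).val τ = B.scale e.deg τ * e.val (B.map τ)
  | .cst c => by simp [Ex.hom, Ex.val, Ex.deg, Box.scale]
  | .vE => by simp [Ex.hom, Ex.val, Ex.deg, Box.scale, Box.map, Ax.num,
      Ax.num_eq (Int.cast_pos.2 hc.1) hE]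
  | .vh => by simp [Ex.hom, Ex.val, Ex.deg, Box.scale, Box.map, Ax.num,
      Ax.num_eq (Int.cast_pos.2 hc.2.1) hh]
  | .vt => by simp [Ex.hom, Ex.val, Ex.deg, Box.scale, Box.map, Ax.num,
      Ax.num_eq (Int.cast_pos.2 hc.2.2.1) ht]
  | .vs => by simp [Ex.hom, Ex.val, Ex.deg, Box.scale, Box.map, Ax.num,
      Ax.num_eq (Int.cast_pos.2 hc.2.2.2.1) hs]
  | .vm => by simp [Ex.hom, Ex.val, Ex.deg, Box.scale, Box.map, Ax.num,
      Ax.num_eq (Int.cast_pos.2 hc.2.2.2.2) hm]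
  | .add x y => by
      simp only [Ex.hom, Ex.val]
      rw [Ex.val_hom B τ hc hE hh ht hs hm x, Ex.val_hom B τ hc hE hh ht hs hm y,
        ← B.pad_scale τ (d := (Ex.add x y).deg) (x := x.deg) (le_max_left _ _) (le_max_left _ _)
          (le_max_left _ _) (le_max_left _ _) (le_max_left _ _)]
      have h2 := B.pad_scale τ (d := (Ex.add x y).deg) (x := y.deg) (le_max_right _ _)
        (le_max_right _ _) (le_max_right _ _) (le_max_right _ _) (le_max_right _ _)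
      have h1 := B.pad_scale τ (d := (Ex.add x y).deg) (x := x.deg) (le_max_left _ _)
        (le_max_left _ _) (le_max_left _ _) (le_max_left _ _) (le_max_left _ _)
      linear_combination (y.val (B.map τ)) * (h2.trans h1.symm)
  | .mul x y => by
      simp only [Ex.hom, Ex.val, Ex.deg]
      rw [Ex.val_hom B τ hc hE hh ht hs hm x, Ex.val_hom B τ hc hE hh ht hs hm y]
      simp only [Box.scale, pow_add]
      ring

theorem hom_sound {b : Base} {B : Box} {e : Ex} (h : chk b (e.hom B) = true)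
    (hc : 0 < B.E.c ∧ 0 < B.h.c ∧ 0 < B.t.c ∧ 0 < B.s.c ∧ 0 < B.m.c) (τ : Pt)
    (hE : 0 ≤ τ.E) (hh : 0 ≤ τ.h) (ht : 0 ≤ τ.t) (hs : 0 ≤ τ.s) (hm : 0 ≤ τ.m) :
    0 ≤ e.val (B.map τ) := by
  have h0 := chk_sound h τ hE hh ht hs hm
  rw [Ex.val_hom B τ hc hE hh ht hs hm e] at h0
  refine nonneg_of_mul_nonneg_right h0 ?_
  obtain ⟨c1, c2, c3, c4, c5⟩ := hc
  unfold Box.scale
  have := (Int.cast_pos (R := ℝ)).2 c1
  have := (Int.cast_pos (R := ℝ)).2 c2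
  have := (Int.cast_pos (R := ℝ)).2 c3
  have := (Int.cast_pos (R := ℝ)).2 c4
  have := (Int.cast_pos (R := ℝ)).2 c5
  positivity

end Vale.Agent.P100.Negative
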