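import Vale.Agent.P100.Negative.Sign
import Vale.Agent.P100.Orbit.Region

/-!
# P100, `T < 0`: the two backward barriers hold on the critical orbit

`H₁ = P - 2 x Pm₁ ≥ 0` needs no limit at the centre: if it were negative at some `T`, it would stay
negative up to `0`, so `ζ` would be below its central value `ζ₀`, against `zeta0_le`.
`H₂ = 2 N (1 - ζ)(w₁ - ζ) - (f - w₁) Q` is positive at the centre by the forward facts.
-/

namespace Vale.Agent.P100.Negative

open MeasureTheory Set Filter Topology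
open Vale.Agent.P100.Orbit

noncomputable section

variable {N p q T₁ T₀ T : ℝ} {U V : ℝ → ℝ}

/-- The backward certificate region. -/
structure NegRegion (S f x z w : ℝ) : Prop extends NegBase S f x z w where
  zeta_barrier : 2 * x * nPm S f z w ≤ nP S f z
  w_barrier : (f - w) * nQ S f z ≤ 2 * (S + 2) * (1 - z) * (w - z)

/-- `f = α/S`. -/
def oF (N q : ℝ) : ℝ := N / (q + 1) / (N - 2)

/-- `x = ξ/S`. -/
def oX (N p : ℝ) (U V : ℝ → ℝ) (T : ℝ) : ℝ := qX N p U V T / (N - 2)

theorem of_eventually_le_right {F : ℝ → ℝ} {a : ℝ} {L : ℝ} (h : Tendsto F (𝓝[>] 0) (𝓝 L))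
    (he : ∀ t, 0 < t → a ≤ F t) : a ≤ L :=
  ge_of_tendsto h (mem_of_superset self_mem_nhdsWithin fun t ht => he t ht)

variable (hN : 2 < N) (hp : 0 < p) (hq : 0 < q) (o : CriticalOrbit N p q T₁ T₀ U V)
  (hqp : q < p) (hc : N / (p + 1) + N / (q + 1) = N - 2) (hS : 3 < N - 2)
include hN hp hq o hqp hc hS

omit o hS in
theorem oF_mem : 1 / 2 < oF N q ∧ oF N q < 1 := by
  have := Ground.half_lt_alpha hN hq hqp hc hp
  have : 0 < N / (p + 1) := div_pos (by linarith) (by linarith)
  have h : (0 : ℝ) < N - 2 := by linarith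
  unfold oF
  rw [lt_div_iff₀ h, div_lt_one h]
  constructor <;> linarith

omit o hS in
theorem eP (z : ℝ) : (N + 2) * (zeta0 N p - z) = nP (N - 2) (oF N q) z := by
  rw [Ground.zeta0_eq hN hp hq hqp hc]
  have : N + 2 ≠ 0 := by linarith
  have : N - 2 ≠ 0 := by linarith
  unfold nP oF
  field_simp
  ring

omit o hS hqp hc hp in
theorem eQ1 : q + 1 = N / (oF N q * (N - 2)) := by
  unfold oF
  have : N - 2 ≠ 0 := by linarith
  have : N ≠ 0 := by linarith
  have : q + 1 ≠ 0 := by linarith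
  field_simp

theorem base (hT : T₀ ≤ T) (hT0 : T < 0) : NegBase (N - 2) (oF N q) (oX N p U V T)
    (pZeta N p q U V T) (pW N p q U V T) := by
  have hf := oF_mem hN hp hq hqp hc
  have hT1 := o.T₁_lt.le.trans hT
  have h0 : (0 : ℝ) < N - 2 := by linarith
  refine ⟨hS, hf.1, hf.2, div_neg_of_neg_of_pos (o.qX_neg hN hp hq hT1 hT0) h0, ?_,
    o.zeta_le_w hN hp hq hT hT0, o.back_w_lt hN hp hq hqp hc hT hT0, ?_⟩
  · rw [← eP hN hp hq hqp hc]
    exact mul_nonpos_of_nonneg_of_nonpos (by linarith) (sub_nonpos.2 (o.zeta0_le hN hp hq hT hT0))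
  · have h := (o.xi_bound hN hp hq hT hT0).2
    rw [eQ1 hN hq] at h
    have hf0 : 0 < oF N q := by linarith
    have hN0 : 0 < N := by linarith
    refine le_of_mul_le_mul_left ?_ (div_pos hN0 hf0)
    refine (le_of_eq ?_).trans (h.trans (le_of_eq ?_))
    · unfold oX; field_simp
    · field_simp

theorem hasDerivAt_x (hT : T₀ ≤ T) (hT0 : T < 0) : HasDerivAt (oX N p U V)
    (dX (N - 2) (oF N q) (oX N p U V T) (pW N p q U V T) / (2 * T)) T := by
  have hT1 := o.T₁_lt.trans_le hT
  have hX := (o.qX_neg hN hp hq hT1.le hT0).ne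
  have hf := oF_mem hN hp hq hqp hc
  refine ((o.hasDerivAt_xi hN hp hq hT1 hT0.ne).div_const (N - 2)).congr_deriv ?_
  have eZ : qZ N p V T = N - (q + 1) * qX N p U V T * pW N p q U V T := by
    unfold pW; field_simp; ring
  have : oF N q ≠ 0 := by linarith
  have : N - 2 ≠ 0 := by linarith
  rw [eZ, eQ1 hN hq]
  unfold dX oX
  field_simp
  ring

theorem hasDerivAt_z (hT : T₀ ≤ T) (hT0 : T < 0) : HasDerivAt (pZeta N p q U V)
    (dZ (N - 2) (oF N q) (oX N p U V T) (pZeta N p q U V T) (pW N p q U V T) / (2 * T)) T := by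
  have hf := oF_mem hN hp hq hqp hc
  refine (o.hasDerivAt_zeta hN hp hq (o.T₁_lt.trans_le hT) hT0.ne).congr_deriv ?_
  have : oF N q ≠ 0 := by linarith
  have : N - 2 ≠ 0 := by linarith
  rw [eP hN hp hq hqp hc, eQ1 hN hq]
  unfold dZ oX nPm
  field_simp
  ring

theorem hasDerivAt_w' (hT : T₀ ≤ T) (hT0 : T < 0) : HasDerivAt (pW N p q U V)
    (dW (N - 2) (oF N q) (oX N p U V T) (pZeta N p q U V T) (pW N p q U V T) / (2 * T)) T := by
  have hb := base hN hp hq o hqp hc hS hT hT0
  have hz : pZeta N p q U V T ≠ 0 := by linarith [hb.aux.1]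
  refine (o.hasDerivAt_w hN hp hq hc (o.T₁_lt.trans_le hT) hT0.ne hz).congr_deriv ?_
  have : oF N q ≠ 0 := by linarith [hb.half_lt_f]
  have : N - 2 ≠ 0 := by linarith
  rw [eP hN hp hq hqp hc, show N / (q + 1) = oF N q * (N - 2) by
    unfold oF; rw [div_mul_cancel₀ _ (show N - 2 ≠ 0 by linarith)]]
  unfold dW oX nP nQ
  field_simp
  ring

/-- `H₁ ≥ 0`: `ζ` grows at most at the doubled rate. -/
theorem zeta_barrier (hT : T₀ ≤ T) (hT0 : T < 0) :
    2 * oX N p U V T * nPm (N - 2) (oF N q) (pZeta N p q U V T) (pW N p q U V T)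
      ≤ nP (N - 2) (oF N q) (pZeta N p q U V T) := by
  set S := N - 2
  set f := oF N q
  set x := oX N p U V
  set z := pZeta N p q U V
  set w := pW N p q U V
  set H : ℝ → ℝ := fun t => nP S f (z t) - 2 * x t * nPm S f (z t) (w t)
  set D : ℝ → ℝ := fun t => dH1 S f (x t) (z t) (w t) / (2 * t)
  have hd : ∀ t ∈ Ico T 0, HasDerivAt H (D t) t := fun t ht => by
    have h1 := hasDerivAt_x hN hp hq o hqp hc hS (hT.trans ht.1) ht.2
    have h2 := hasDerivAt_z hN hp hq o hqp hc hS (hT.trans ht.1) ht.2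
    have h3 := hasDerivAt_w' hN hp hq o hqp hc hS (hT.trans ht.1) ht.2
    refine (((h2.const_mul (S + 4)).const_sub (S * f + 2)).sub ((h1.const_mul 2).mul
      (((h2.const_sub 1).const_mul ((S + 2) / f)).mul (h3.sub h2)))).congr_deriv ?_
    simp only [D, dH1, nPm, Pi.mul_apply, Pi.sub_apply]
    ring
  by_contra hn
  push Not at hn
  have hneg : ∀ t ∈ Ioo T 0, 0 < -H t := above_on (f := fun t => -H t) (f' := fun t => -D t)
    (fun t ht => (hd t ht).neg) (by simp only [H]; linarith) fun t ht he => by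
      have hb := base hN hp hq o hqp hc hS (hT.trans ht.1) ht.2
      have := dH1_pos hb (by simp only [H] at he; linarith)
      exact neg_pos.2 (div_neg_of_pos_of_neg this (by linarith [ht.2]))
  have hneg' : ∀ t ∈ Ico T 0, H t < 0 := fun t ht => by
    rcases ht.1.lt_or_eq with h | h
    · linarith [hneg t ⟨h, ht.2⟩]
    · rw [← h]; simp only [H]; linarith
  have hmono : StrictMonoOn z (Ico T 0) :=
    strictMonoOn_of_hasDerivWithinAt_pos (convex_Ico T 0)
      (fun t ht => (hasDerivAt_z hN hp hq o hqp hc hS (hT.trans ht.1) ht.2).continuousAt.continuousWithinAt)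
      (fun t ht => (hasDerivAt_z hN hp hq o hqp hc hS (hT.trans (interior_subset ht).1)
        (interior_subset ht).2).hasDerivWithinAt)
      fun t ht => by
        have ht' := interior_subset ht
        have hb := base hN hp hq o hqp hc hS (hT.trans ht'.1) ht'.2
        obtain ⟨hz, hzw, -, hz1, -⟩ := hb.aux
        have hH := hneg' t ht'
        have hPm : 0 < nPm S f (z t) (w t) := by
          unfold nPm
          have := hb.half_lt_f
          have : 0 < 1 - z t := by linarith
          have : 0 < w t - z t := by linarith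
          positivity
        have := mul_neg_of_neg_of_pos hb.x_neg hPm
        refine div_pos_of_neg_of_neg ?_ (by linarith [ht'.2])
        simp only [H] at hH
        unfold dZ
        linarith
  obtain ⟨t, ht⟩ := exists_between hT0
  have hlim : Tendsto z (𝓝[<] 0) (𝓝 (zeta0 N p)) :=
    (o.tendsto_zeta_center hN hp hq hqp hc).mono_left
      (nhdsWithin_mono 0 fun x (hx : x < 0) => ne_of_lt hx)
  have h1 : z t ≤ zeta0 N p := ge_of_tendsto hlim (by
    filter_upwards [Ioo_mem_nhdsLT ht.2] with s hs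
    exact (hmono.le_iff_le ⟨ht.1.le, ht.2⟩ ⟨ht.1.le.trans hs.1.le, hs.2⟩).2 hs.1.le)
  have h2 := hmono ⟨le_rfl, hT0⟩ ⟨ht.1.le, ht.2⟩ ht.1
  have h3 := o.zeta0_le hN hp hq hT hT0
  linarith

omit hS in
/-- At the centre `r Q ≤ N (1 - ζ)(w - ζ)`. -/
theorem center_bound {w₀ : ℝ} (hw : Tendsto (pW N p q U V) (𝓝[≠] 0) (𝓝 w₀)) :
    (oF N q - w₀) * nQ (N - 2) (oF N q) (zeta0 N p) ≤ N * (1 - zeta0 N p) * (w₀ - zeta0 N p) := by
  set f := oF N q
  have hz := (o.tendsto_zeta_center hN hp hq hqp hc).mono_left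
    (nhdsWithin_mono 0 fun x (hx : (0 : ℝ) < x) => ne_of_gt hx)
  have hw' := hw.mono_left (nhdsWithin_mono 0 fun x (hx : (0 : ℝ) < x) => ne_of_gt hx)
  have hF : Tendsto (fun t => N * (1 - pZeta N p q U V t) * (pW N p q U V t - pZeta N p q U V t)
      - (f - pW N p q U V t) * (2 * (N - 2 + 2) * pZeta N p q U V t - (N - 2) * f - 2)) (𝓝[>] 0)
      (𝓝 (N * (1 - zeta0 N p) * (w₀ - zeta0 N p)
        - (f - w₀) * (2 * (N - 2 + 2) * zeta0 N p - (N - 2) * f - 2))) :=
    (((hz.const_sub 1).const_mul N).mul (hw'.sub hz)).sub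
      ((hw'.const_sub f).mul (((hz.const_mul _).sub_const _).sub_const _))
  refine sub_nonneg.1 (of_eventually_le_right hF fun t ht => ?_)
  have hi := (o.toGround hN hp hq).inRegion hN hp hq hqp hc ht
  set x := qX N p U V t / (N - 2)
  set z := pZeta N p q U V t
  set w := pW N p q U V t
  have hx1 := hi.x_lt_one
  have hx0 := hi.x_pos
  have hP1 := hi.phi_le_one
  have hm := hi.w_mono
  have hf : 0 < f := lt_trans (by norm_num) hi.half_lt_f
  have hP0 := hi.P_pos
  rw [show N / (q + 1) / (N - 2) = f from rfl] at hP1 hm hP0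
  have h1 : x * (f - w) * (2 * (N - 2 + 2) * z - (N - 2) * f - 2) / f
      ≤ x * rPm (N - 2) f z w := by
    have := mul_le_mul_of_nonneg_left hP1.le (sub_nonneg.2 hx1.le)
    have := mul_nonneg hx0.le (hP0.le.trans hP1.le)
    linarith
  have h2 : x / f * ((f - w) * (2 * (N - 2 + 2) * z - (N - 2) * f - 2))
      ≤ x / f * (N * (1 - z) * (w - z)) := by
    refine (le_of_eq ?_).trans (h1.trans (le_of_eq ?_))
    · ring
    · unfold rPm; field_simp; ring
  linarith [le_of_mul_le_mul_left h2 (div_pos hx0 hf)]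

/-- `H₂ ≥ 0`. -/
theorem w_barrier (hT : T₀ ≤ T) (hT0 : T < 0) :
    (oF N q - pW N p q U V T) * nQ (N - 2) (oF N q) (pZeta N p q U V T)
      ≤ 2 * (N - 2 + 2) * (1 - pZeta N p q U V T) * (pW N p q U V T - pZeta N p q U V T) := by
  set S := N - 2 with hSdef
  set f := oF N q
  set x := oX N p U V
  set z := pZeta N p q U V
  set w := pW N p q U V
  set H : ℝ → ℝ := fun t => 2 * (S + 2) * ((1 - z t) * (w t - z t))
    - (f - w t) * (2 * (S + 2) * z t - S * f - 2)
  set D : ℝ → ℝ := fun t => dH2 S f (x t) (z t) (w t) / (2 * t)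
  have hd : ∀ t ∈ Ico T 0, HasDerivAt H (D t) t := fun t ht => by
    have h2 := hasDerivAt_z hN hp hq o hqp hc hS (hT.trans ht.1) ht.2
    have h3 := hasDerivAt_w' hN hp hq o hqp hc hS (hT.trans ht.1) ht.2
    refine ((((h2.const_sub 1).mul (h3.sub h2)).const_mul (2 * (S + 2))).sub
      ((h3.const_sub f).mul (((h2.const_mul (2 * (S + 2))).sub_const (S * f)).sub_const 2))).congr_deriv ?_
    simp only [D, dH2, nQ, Pi.sub_apply]
    ring
  by_contra hn
  push Not at hn
  have hneg := above_on (f := fun t => -H t) (f' := fun t => -D t) (c := 0)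
    (fun t ht => (hd t ht).neg) (by simp only [H]; unfold nQ at hn; linarith) fun t ht he => by
      have hb := base hN hp hq o hqp hc hS (hT.trans ht.1) ht.2
      have h1 := zeta_barrier hN hp hq o hqp hc hS (hT.trans ht.1) ht.2
      have := dH2_pos hb h1 (by unfold nQ; simp only [H] at he; linarith)
      exact neg_pos.2 (div_neg_of_pos_of_neg this (by linarith [ht.2]))
  obtain ⟨w₀, hw0, hw⟩ := o.exists_w_center hN hp hq hqp hc
  have hcb := center_bound hN hp hq o hqp hc hw
  have hsub : ∀ᶠ t in 𝓝[<] (0 : ℝ), H t ≤ 0 := by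
    filter_upwards [Ioo_mem_nhdsLT hT0] with t ht
    linarith [hneg t ht]
  have hz' := (o.tendsto_zeta_center hN hp hq hqp hc).mono_left
    (nhdsWithin_mono 0 fun x (hx : x < (0 : ℝ)) => ne_of_lt hx)
  have hw' := hw.mono_left (nhdsWithin_mono 0 fun x (hx : x < (0 : ℝ)) => ne_of_lt hx)
  have hlim : Tendsto H (𝓝[<] 0) (𝓝 (2 * (S + 2) * ((1 - zeta0 N p) * (w₀ - zeta0 N p))
      - (f - w₀) * (2 * (S + 2) * zeta0 N p - S * f - 2))) :=
    (((hz'.const_sub 1).mul (hw'.sub hz')).const_mul _).sub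
      ((hw'.const_sub f).mul (((hz'.const_mul _).sub_const _).sub_const _))
  have hle := le_of_tendsto hlim hsub
  unfold nQ at hcb
  have hQ : 0 < 2 * (S + 2) * zeta0 N p - S * f - 2 := by
    rw [Ground.zeta0_eq hN hp hq hqp hc]
    have hf2 := oF_mem hN hp hq hqp hc
    have e : N / (q + 1) = f * S := by
      simp only [f, S, oF]; rw [div_mul_cancel₀ _ (show N - 2 ≠ 0 by linarith)]
    rw [e, show 2 * (S + 2) * ((f * S + 2) / (N + 2)) = 2 * (S + 2) * (f * S + 2) / (N + 2) by ring,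
      lt_sub_iff_add_lt, lt_sub_iff_add_lt, lt_div_iff₀ (by linarith)]
    simp only [S]
    have : 0 < (N - 2) * ((N - 2) * f + 2) := mul_pos (by linarith)
      (by have := mul_pos (show 0 < N - 2 by linarith) (show 0 < f by linarith [hf2.1]); linarith)
    linarith
  have hr0 : 0 < f - w₀ := sub_pos.2 hw0
  have := mul_pos hr0 hQ
  simp only [S, f] at hle this hcb
  linarith

/-- The backward orbit lies in the certificate region. -/
theorem negRegion (hT : T₀ ≤ T) (hT0 : T < 0) : NegRegion (N - 2) (oF N q) (oX N p U V T)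
    (pZeta N p q U V T) (pW N p q U V T) :=
  ⟨base hN hp hq o hqp hc hS hT hT0, zeta_barrier hN hp hq o hqp hc hS hT hT0,
    w_barrier hN hp hq o hqp hc hS hT hT0⟩

end

end Vale.Agent.P100.Negative
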