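import Vale.Agent.P098.Five.Poly

/-!
# P100, `T < 0`: signs of coefficients read from one integer

A polynomial in five variables is evaluated at powers of two so large that its coefficients are the
signed digits of the value. If a bound by absolute values shows that no coefficient is half a base
and no digit is half a base, all coefficients are nonnegative.
-/

namespace Vale.Agent.P100.Negative

open Vale.Agent.P098.Five

/-- A bound for absolute values that respects the list operations. -/
structure IsNrm {α : Type} [Mdl α] (A : α → ℝ) : Prop where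
  zero : A Mdl.zero = 0
  nonneg : ∀ a, 0 ≤ A a
  add : ∀ a b, A (Mdl.add a b) ≤ A a + A b
  smul : ∀ (c : ℤ) a, A (Mdl.smul c a) ≤ |(c : ℝ)| * A a

theorem isNrm_int : IsNrm (fun a : ℤ => |(a : ℝ)|) :=
  ⟨by simp [Mdl.zero], fun a => abs_nonneg _,
    fun a b => by simp only [Mdl.add, Int.cast_add]; exact abs_add_le _ _,
    fun c a => by simp only [Mdl.smul, Int.cast_mul, abs_mul]; exact le_refl _⟩

variable {α β : Type} [Mdl α] {A : α → ℝ} {x : ℝ}

theorem monE_le_monE_zadd (hA : IsNrm A) (hx : 0 ≤ x) :
    ∀ p q, monE A x (zadd p q) ≤ monE A x p + monE A x q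
  | [], q => by simp [zadd, monE]
  | a :: p, [] => by simp [zadd, monE]
  | a :: p, b :: q => by
      simp only [zadd, monE]
      have := mul_le_mul_of_nonneg_left (monE_le_monE_zadd hA hx p q) hx
      linarith [hA.add a b]

omit [Mdl α] in
theorem monE_nonneg' (h : ∀ a, 0 ≤ A a) (hx : 0 ≤ x) : ∀ p, 0 ≤ monE A x p
  | [] => le_rfl
  | a :: p => add_nonneg (h a) (mul_nonneg hx (monE_nonneg' h hx p))

theorem monE_map_smul_le (hA : IsNrm A) (hx : 0 ≤ x) (c : ℤ) :
    ∀ p, monE A x (p.map (Mdl.smul c)) ≤ |(c : ℝ)| * monE A x p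
  | [] => by simp [monE]
  | a :: p => by
      simp only [List.map_cons, monE]
      have := mul_le_mul_of_nonneg_left (monE_map_smul_le hA hx c p) hx
      linarith [hA.smul c a]

theorem IsNrm.mon (hA : IsNrm A) (hx : 0 ≤ x) : IsNrm (monE A x) :=
  ⟨rfl, monE_nonneg' hA.nonneg hx, monE_le_monE_zadd hA hx, monE_map_smul_le hA hx⟩

theorem monE_pmul_le (hA : IsNrm A) {m : α → α → α} (hm : ∀ a b, A (m a b) ≤ A a * A b)
    (hx : 0 ≤ x) : ∀ p q, monE A x (pmul m p q) ≤ monE A x p * monE A x q
  | [], q => by simp [pmul, monE]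
  | a :: p, q => by
      have hmap : ∀ q, monE A x (q.map (m a)) ≤ A a * monE A x q := by
        intro q
        induction q with
        | nil => simp [monE]
        | cons b q ih =>
          simp only [List.map_cons, monE]
          have := mul_le_mul_of_nonneg_left ih hx
          linarith [hm a b]
      have h := monE_le_monE_zadd hA hx (q.map (m a)) (Mdl.zero :: pmul m p q)
      simp only [monE, hA.zero, zero_add] at h
      simp only [pmul, monE]
      have := mul_le_mul_of_nonneg_left (monE_pmul_le hA hm hx p q) hx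
      linarith [hmap q]

omit [Mdl α] in
theorem abs_monE_le {g : α → ℝ} (h : ∀ a, |g a| ≤ A a) (hx : 0 ≤ x) :
    ∀ p, |monE g x p| ≤ monE A x p
  | [] => by simp [monE]
  | a :: p => by
      simp only [monE]
      refine (abs_add_le _ _).trans (add_le_add (h a) ?_)
      rw [abs_mul, abs_of_nonneg hx]
      exact mul_le_mul_of_nonneg_left (abs_monE_le h hx p) hx

omit [Mdl α] in
theorem le_monE_one (h : ∀ a, 0 ≤ A a) : ∀ p : List α, ∀ a ∈ p, A a ≤ monE A 1 p
  | [], a, ha => by simp at ha
  | b :: p, a, ha => by
      simp only [monE, one_mul]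
      rcases List.mem_cons.1 ha with rfl | ha
      · linarith [monE_nonneg' h zero_le_one p]
      · linarith [h b, le_monE_one h p a ha]

/-- The digit test: no digit reaches half the base, and each passes the next test. -/
def dig (B : ℕ) (ok : ℕ → Bool) : ℕ → ℕ → Bool
  | 0, K => decide (K = 0) && ok 0
  | n + 1, K => decide (2 * (K % B) < B) && ok (K % B) && dig B ok n (K / B)

omit [Mdl α] in
theorem dig_sound {g : α → ℝ} {B : ℕ} {ok : ℕ → Bool} (hB : 0 < B)
    (hg : ∀ a, ∃ z : ℤ, g a = z) :
    ∀ (p : List α) (n K : ℕ), (∀ a ∈ p, 2 * |g a| < B) → dig B ok n K = true →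
      monE g B p = K → ∀ a ∈ p, ∃ d : ℕ, g a = d ∧ ok d = true := by
  intro p
  induction p with
  | nil => simp
  | cons b p ih =>
    intro n K hb h hK a ha
    obtain ⟨z, hz⟩ := hg b
    have hpz : ∀ p : List α, ∃ w : ℤ, monE g B p = w := by
      intro p
      induction p with
      | nil => exact ⟨0, by simp [monE]⟩
      | cons c p ihp =>
        obtain ⟨u, hu⟩ := hg c
        obtain ⟨w, hw⟩ := ihp
        exact ⟨u + B * w, by simp [monE, hu, hw]⟩
    obtain ⟨w, hw⟩ := hpz p
    have e : z + (B : ℤ) * w = K := by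
      have : (z : ℝ) + (B : ℝ) * w = K := by rw [← hz, ← hw]; exact hK
      exact_mod_cast this
    have hz2 : 2 * |z| < B := by
      have := hb b (by simp)
      rw [hz] at this
      exact_mod_cast this
    have hdigit : ∀ r q : ℕ, 2 * r < B → r + B * q = K → z = r ∧ w = q := by
      intro r q hr hrq
      have h1 : z - r = (B : ℤ) * (q - w) := by
        have : (r : ℤ) + B * q = K := by exact_mod_cast hrq
        linarith
      have h2 : |z - r| < (B : ℤ) := by
        have : (2 : ℤ) * r < B := by exact_mod_cast hr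
        rw [abs_lt]
        constructor <;> linarith [neg_abs_le z, le_abs_self z, Int.natCast_nonneg r]
      rw [h1, abs_mul, abs_of_pos (show (0 : ℤ) < B by exact_mod_cast hB)] at h2
      have h3 : |(q : ℤ) - w| < 1 := by
        by_contra h3
        have := mul_le_mul_of_nonneg_left (not_lt.1 h3) (Int.natCast_nonneg B)
        linarith
      have h4 : (q : ℤ) - w = 0 := Int.abs_lt_one_iff.1 h3
      exact ⟨by rw [h4] at h1; linarith, by linarith⟩
    cases n with
    | zero =>
      simp only [dig, Bool.and_eq_true, decide_eq_true_eq] at h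
      obtain ⟨h0, hw0⟩ := hdigit 0 0 (by omega) (by simp [h.1])
      rcases List.mem_cons.1 ha with rfl | ha
      · exact ⟨0, by rw [hz, h0, Int.cast_natCast], h.2⟩
      · exact ih 0 0 (fun c hc => hb c (by simp [hc])) (by simp [dig, h.2])
          (by rw [hw, hw0, Int.cast_natCast]) a ha
    | succ n =>
      simp only [dig, Bool.and_eq_true, decide_eq_true_eq] at h
      obtain ⟨h0, hw0⟩ := hdigit (K % B) (K / B) h.1.1 (Nat.mod_add_div K B)
      rcases List.mem_cons.1 ha with rfl | ha
      · exact ⟨K % B, by rw [hz, h0, Int.cast_natCast], h.1.2⟩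
      · exact ih n (K / B) (fun c hc => hb c (by simp [hc])) h.2 (by rw [hw, hw0, Int.cast_natCast]) a ha

end Vale.Agent.P100.Negative
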