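import Mathlib

/-!
# P100, `T < 0`: sign lemmas for the two backward barriers

Normalised variables `S`, `f = α/S`, `x = ξ/S < 0`, `z = ζ`, `w = w₁`, `N = S + 2`.
`H₁ = P - 2 x Pm₁` and `H₂ = 2 N (1 - z)(w - z) - (f - w) Q`.
-/

namespace Vale.Agent.P100.Negative

noncomputable section

/-- `P = (N + 2)(ζ₀ - ζ)`. -/
def nP (S f z : ℝ) : ℝ := S * f + 2 - (S + 4) * z

/-- `Pm₁`. -/
def nPm (S f z w : ℝ) : ℝ := (S + 2) / f * (1 - z) * (w - z)

/-- `Q = 2 N ζ - S f - 2`. -/
def nQ (S f z : ℝ) : ℝ := 2 * (S + 2) * z - S * f - 2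

/-- `ρ dx/dρ`. -/
def dX (S f x w : ℝ) : ℝ := x * (2 * (1 - x) + x * (S + 2) * (f - w) / f)

/-- `ρ dζ/dρ`. -/
def dZ (S f x z w : ℝ) : ℝ := nP S f z - x * nPm S f z w

/-- `ρ dw₁/dρ`. -/
def dW (S f x z w : ℝ) : ℝ := w / z * ((1 - x) * nP S f z - x * (f - w) * nQ S f z / f)

/-- `ρ d/dρ` of `H₁`. -/
def dH1 (S f x z w : ℝ) : ℝ :=
  -(S + 4) * dZ S f x z w - 2 * dX S f x w * nPm S f z w
    - 2 * x * ((S + 2) / f * (-dZ S f x z w * (w - z) + (1 - z) * (dW S f x z w - dZ S f x z w)))

/-- `ρ d/dρ` of `H₂`. -/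
def dH2 (S f x z w : ℝ) : ℝ :=
  2 * (S + 2) * (-dZ S f x z w * (w - z) + (1 - z) * (dW S f x z w - dZ S f x z w))
    + dW S f x z w * nQ S f z - (f - w) * (2 * (S + 2) * dZ S f x z w)

/-- The crude backward facts. -/
structure NegBase (S f x z w : ℝ) : Prop where
  S_gt : 3 < S
  half_lt_f : 1 / 2 < f
  f_lt_one : f < 1
  x_neg : x < 0
  P_nonpos : nP S f z ≤ 0
  z_le_w : z ≤ w
  w_lt_f : w < f
  rmax : -x * w * (2 * z - 1) ≤ f * (w - z)

variable {S f x z w : ℝ}

theorem NegBase.aux (h : NegBase S f x z w) :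
    1 / 2 < z ∧ z < w ∧ z < f ∧ z < 1 ∧ 0 < nQ S f z := by
  have hS := h.S_gt
  have hf := h.half_lt_f
  have hP := h.P_nonpos
  unfold nP at hP
  have hz : 1 / 2 < z := by
    by_contra hn
    push Not at hn
    have := mul_le_mul_of_nonneg_left hn (show (0 : ℝ) ≤ S + 4 by linarith)
    have := mul_lt_mul_of_pos_left hf (show (0 : ℝ) < S by linarith)
    linarith
  have hzw : z < w := by
    refine h.z_le_w.lt_of_ne fun e => ?_
    have hr := h.rmax
    rw [← e, sub_self, mul_zero] at hr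
    have := mul_pos (mul_pos (neg_pos.2 h.x_neg) (show 0 < z by linarith)) (show 0 < 2 * z - 1 by linarith)
    linarith
  refine ⟨hz, hzw, hzw.trans h.w_lt_f, by linarith [h.w_lt_f, h.f_lt_one], ?_⟩
  unfold nQ
  have := mul_lt_mul_of_pos_left hz (show (0 : ℝ) < S by linarith)
  have := mul_lt_mul_of_pos_left h.f_lt_one (show (0 : ℝ) < S by linarith)
  nlinarith

/-- The scalar core of the first sign lemma. -/
theorem core1 {S b m c : ℝ} (hS : 3 ≤ S) (hb : 0 ≤ b) (hm : 0 ≤ m) (hc : c ≤ 7 / 5 * b)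
    (hD : m * (S / 2 + b) ≤ 7 / 5) (hbN : b * (S / 2 + b) ≤ S + 2) :
    0 < (S + 4) / 2 + b + 2 * (1 + m) * (1 - c) := by
  rcases le_or_gt c 1 with h | h
  · have := mul_nonneg (show (0 : ℝ) ≤ 2 * (1 + m) by linarith) (sub_nonneg.2 h)
    linarith
  have hD0 : 0 < S / 2 + b := by linarith
  have hb2 : b ≤ 2 := by
    by_contra hn
    push Not at hn
    have : 2 * (S / 2 + 2) ≤ b * (S / 2 + b) := by gcongr
    linarith
  have key : 2 * (S / 2 + b + 7 / 5) * (7 / 5 * b - 1) < ((S + 4) / 2 + b) * (S / 2 + b) := by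
    nlinarith
  have h2 : 2 * (1 + m) * (c - 1) * (S / 2 + b) ≤ 2 * (S / 2 + b + 7 / 5) * (7 / 5 * b - 1) := by
    calc 2 * (1 + m) * (c - 1) * (S / 2 + b) = 2 * (S / 2 + b + m * (S / 2 + b)) * (c - 1) := by ring
      _ ≤ 2 * (S / 2 + b + 7 / 5) * (7 / 5 * b - 1) := by gcongr
  by_contra hn
  push Not at hn
  have := mul_le_mul_of_nonneg_right hn hD0.le
  linarith

/-- `H₁ = 0` forces `H₁` to increase. -/
theorem dH1_pos (h : NegBase S f x z w) (he : nP S f z = 2 * x * nPm S f z w) :
    0 < dH1 S f x z w := by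
  obtain ⟨hz, hzw, hzf, hz1, hQ⟩ := h.aux
  have hS := h.S_gt
  have hfh := h.half_lt_f
  have hf1 := h.f_lt_one
  have hwf := h.w_lt_f
  have hr := h.rmax
  have hP := h.P_nonpos
  have hx := h.x_neg
  set m := -x with hm
  have hm0 : 0 < m := by simp only [hm]; linarith
  set u := w - z with hu
  have hu0 : 0 < u := by simp only [hu]; linarith
  set b := m * (S + 2) * (1 - z) / f with hb
  have hb0 : 0 < b := by
    have : 0 < 1 - z := by linarith
    have : 0 < f := by linarith
    positivity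
  have hf0 : 0 < f := by linarith
  have eP : nP S f z = -(2 * b * u) := by
    rw [he]; unfold nPm; simp only [hb, hu, hm]; field_simp
  have h2z : u * (S / 2 + b) ≤ 2 * z - 1 := by
    have e := eP
    unfold nP at e
    have : (S + 4) * (S / 2) * u ≤ (S + 4) * (S / 2) * (f - z) :=
      mul_le_mul_of_nonneg_left (by simp only [hu]; linarith) (by positivity)
    nlinarith
  have hD : m * w * (S / 2 + b) ≤ f := by
    refine le_of_mul_le_mul_left ?_ hu0
    calc u * (m * w * (S / 2 + b)) = m * w * (u * (S / 2 + b)) := by ring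
      _ ≤ m * w * (2 * z - 1) := mul_le_mul_of_nonneg_left h2z (mul_nonneg hm0.le (by linarith))
      _ ≤ f * u := by simp only [hm, hu]; linarith
      _ = u * f := by ring
  have hfz : f ≤ 7 / 5 * z := by
    unfold nP at hP
    have h1 : f * (5 * (S + 4)) ≤ 7 * (S * f + 2) := by nlinarith
    nlinarith
  have hD' : m * (S / 2 + b) ≤ 7 / 5 := by
    have h1 : m * z * (S / 2 + b) ≤ m * w * (S / 2 + b) := by gcongr
    refine le_of_mul_le_mul_right ?_ (show 0 < z by linarith)
    linarith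
  have hbN : b * (S / 2 + b) ≤ S + 2 := by
    have h1 : b * (S / 2 + b) * (f * w) = m * w * (S / 2 + b) * ((S + 2) * (1 - z)) := by
      simp only [hb]; field_simp
    have h2 : m * w * (S / 2 + b) * ((S + 2) * (1 - z)) ≤ f * ((S + 2) * w) :=
      mul_le_mul hD (mul_le_mul_of_nonneg_left (by linarith) (by linarith))
        (mul_nonneg (by linarith) (by linarith)) hf0.le
    refine le_of_mul_le_mul_right ?_ (show 0 < f * w from mul_pos hf0 (by linarith))
    linarith
  have hc : b * w / z ≤ 7 / 5 * b := by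
    rw [div_le_iff₀ (by linarith)]
    calc b * w ≤ b * (7 / 5 * z) := mul_le_mul_of_nonneg_left (by linarith) hb0.le
      _ = 7 / 5 * b * z := by ring
  have hcore := core1 hS.le hb0.le hm0.le hc hD' hbN
  have hQu : (S + 2) * u ≤ w / z * nQ S f z := by
    refine le_trans ?_ (le_mul_of_one_le_left hQ.le ((one_le_div (by linarith)).2 hzw.le))
    unfold nQ
    unfold nP at hP
    simp only [hu]
    have hA : 3 * ((S + 2) * (w - z)) ≤ 3 * ((S + 2) * (f - z)) := by gcongr
    nlinarith
  have key : dH1 S f x z w = 2 * b * u * ((S + 4) / 2 + b + 2 * (1 + m) * (1 - b * w / z)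
      + b * u / (1 - z) + m * (f - w) / (f * u) * (w / z * nQ S f z - (S + 2) * u)) := by
    have e1 : dZ S f x z w = -(b * u) := by
      unfold dZ; rw [eP]; unfold nPm; simp only [hb, hu, hm]; field_simp; ring
    have e2 : dW S f x z w = w / z * (-(2 * b * u) * (1 + m) + m * (f - w) * nQ S f z / f) := by
      unfold dW; rw [eP]; simp only [hm]; ring
    have e3 : x * nPm S f z w = -(b * u) := by unfold nPm; simp only [hb, hu, hm]; field_simp
    have e4 : dX S f x w * nPm S f z w
        = -(b * u) * (2 * (1 + m) - m * (S + 2) * (f - w) / f) := by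
      rw [← e3]; unfold dX; simp only [hm]; ring
    have hz10 : (1 - z) ≠ 0 := by linarith
    have hu' := hu0.ne'
    have e5 : x * ((S + 2) / f) = -(b / (1 - z)) := by simp only [hb, hm]; field_simp
    have e6 : ∀ X, 2 * x * ((S + 2) / f * X) = -(2 * (b / (1 - z)) * X) := fun X => by
      rw [show 2 * x * ((S + 2) / f * X) = 2 * (x * ((S + 2) / f)) * X by ring, e5]; ring
    unfold dH1
    rw [mul_assoc 2 (dX S f x w), e4, e6, e1, e2, ← hu]
    field_simp
    ring
  rw [key]
  refine mul_pos (by positivity) ?_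
  have : 0 ≤ b * u / (1 - z) := div_nonneg (by positivity) (by linarith)
  have : 0 ≤ m * (f - w) / (f * u) * (w / z * nQ S f z - (S + 2) * u) :=
    mul_nonneg (div_nonneg (mul_nonneg hm0.le (by linarith)) (by positivity)) (sub_nonneg.2 hQu)
  linarith

/-- The two polynomial inequalities behind the second sign lemma. -/
theorem core2 (hS : 3 ≤ S) (hf : 1 / 2 < f) (hf1 : f < 1) (hz : nP S f z ≤ 0) (hzf : z < f) :
    f * nQ S f z * (f - z) < z * (2 * z - 1) * ((S + 2) * (1 + f - 2 * z))
    ∧ f * nQ S f z * (f - z) < z * (2 * z - 1) * ((S + 2) * (2 * z - f) + S * (1 - f)) := by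
  unfold nP at hz
  unfold nQ
  set e := 2 * f - 1 with he
  have he0 : 0 < e := by simp only [he]; linarith
  set t := (f - z) / e with ht
  have ht0 : 0 < t := div_pos (by linarith) he0
  have hte : t * e = f - z := div_mul_cancel₀ _ he0.ne'
  have ht7 : t ≤ 2 / 7 := by
    rw [div_le_iff₀ he0]
    have : 7 * (f - z) ≤ (S + 4) * (f - z) := mul_le_mul_of_nonneg_right (by linarith) (by linarith)
    simp only [he]
    linarith
  have hef : e ≤ f := by simp only [he]; linarith
  have hteF : t * e ≤ t * f := mul_le_mul_of_nonneg_left hef ht0.le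
  have htf : t * f ≤ 2 / 7 * f := mul_le_mul_of_nonneg_right ht7 (by linarith)
  have q1 : 0 < 1 - 4 * t + 2 * t ^ 2 := by nlinarith
  have q2 : 0 < f - 3 * t * f - t * e + 2 * t ^ 2 * e := by
    nlinarith [mul_pos (show 0 < f by linarith) q1, mul_nonneg (mul_nonneg ht0.le (sub_nonneg.2 hef))
      (show (0 : ℝ) ≤ 1 - 2 * t by linarith)]
  have q3 : t * f * (f - 2 * (t * e)) < (f - t * e) * (1 - 2 * t) * (1 - f + 2 * (t * e)) := by
    have hG : 0 < (1 - f) * (1 - 3 * t + 2 * t ^ 2) + t * (e * (2 - 4 * t + 4 * t ^ 2) - f) := by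
      have := mul_pos (sub_pos.2 hf1) q1
      have := mul_pos he0 (mul_pos ht0 (pow_pos (show (0 : ℝ) < 1 - 2 * t by linarith) 2))
      simp only [he] at *
      linarith
    nlinarith [mul_pos (show 0 < f by linarith) hG, mul_nonneg
      (mul_nonneg ht0.le (sub_nonneg.2 hef)) (mul_nonneg (show (0 : ℝ) ≤ 1 - 2 * t by linarith)
        (show 0 ≤ 1 - f + 2 * (t * e) by linarith [mul_pos ht0 he0]))]
  have eQ : 2 * (S + 2) * z - S * f - 2 = (S + 2) * (f - 2 * (t * e)) - 2 * (1 - f) := by rw [hte]; ring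
  have eA : 2 * z - 1 = e * (1 - 2 * t) := by
    rw [show e * (1 - 2 * t) = e - 2 * (t * e) by ring, hte]; simp only [he]; ring
  have hN : 0 < S + 2 := by linarith
  have hz' : z = f - t * e := by linarith
  have hl : f * (2 * (S + 2) * z - S * f - 2) * (f - z)
      ≤ e * ((S + 2) * (t * f * (f - 2 * (t * e)))) := by
    rw [eQ, ← hte]
    have := mul_nonneg (mul_nonneg (show 0 ≤ f by linarith) (sub_nonneg.2 hf1.le)) (mul_pos ht0 he0).le
    linarith
  refine ⟨hl.trans_lt ?_, hl.trans_lt ?_⟩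
  · calc e * ((S + 2) * (t * f * (f - 2 * (t * e))))
        < e * ((S + 2) * ((f - t * e) * (1 - 2 * t) * (1 - f + 2 * (t * e)))) := by gcongr
      _ = _ := by rw [eA, hz']; ring
  · calc e * ((S + 2) * (t * f * (f - 2 * (t * e))))
        < e * ((S + 2) * ((f - t * e) * (1 - 2 * t) * (f - 2 * (t * e)))) := by
          refine mul_lt_mul_of_pos_left (mul_lt_mul_of_pos_left
            (mul_lt_mul_of_pos_right ?_ (by linarith)) hN) he0
          linarith
      _ ≤ e * ((f - t * e) * (1 - 2 * t) * ((S + 2) * (f - 2 * (t * e)) + S * (1 - f))) := by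
          have := mul_nonneg (mul_nonneg he0.le (mul_nonneg (show 0 ≤ f - t * e by linarith)
            (show (0 : ℝ) ≤ 1 - 2 * t by linarith))) (mul_nonneg (show 0 ≤ S by linarith) (sub_nonneg.2 hf1.le))
          linarith
      _ = _ := by rw [eA, hz']; ring

/-- `H₂ = 0` with `H₁ ≥ 0` forces `H₂` to increase. -/
theorem dH2_pos (h : NegBase S f x z w) (h1 : 2 * x * nPm S f z w ≤ nP S f z)
    (he : 2 * (S + 2) * (1 - z) * (w - z) = (f - w) * nQ S f z) :
    0 < dH2 S f x z w := by
  obtain ⟨hz, hzw, hzf, hz1, hQ⟩ := h.aux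
  have hS := h.S_gt
  have hfh := h.half_lt_f
  have hf1 := h.f_lt_one
  have hwf := h.w_lt_f
  have hr := h.rmax
  have hx := h.x_neg
  have hP := h.P_nonpos
  obtain ⟨c1, c2⟩ := core2 hS.le hfh hf1 hP hzf
  set p := -nP S f z with hp
  set m := -x with hm
  have hp0 : 0 ≤ p := by simp only [hp]; linarith
  have hm0 : 0 < m := by simp only [hm]; linarith
  have hf0 : 0 < f := by linarith
  set k := (f - w) * nQ S f z / f with hk
  have hk0 : 0 < k := div_pos (mul_pos (by linarith) hQ) hf0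
  set A₀ := (S + 2) + S * (1 - f) with hA
  have eA : A₀ = nQ S f z + 2 * (S + 2) * (1 - z) := by simp only [hA]; unfold nQ; ring
  have hA0 : 0 < A₀ := by
    have := mul_nonneg (show 0 ≤ S by linarith) (sub_nonneg.2 hf1.le)
    simp only [hA]; linarith
  set Y := w / z * A₀ with hY
  set B := (S + 2) * (1 + f - 2 * z) with hB
  have hY0 : A₀ ≤ Y := le_mul_of_one_le_left hA0.le ((one_le_div (by linarith)).2 hzw.le)
  have ePm : 2 * nPm S f z w = k := by
    unfold nPm; simp only [hk]; rw [← he]; field_simp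
  have hpk : p ≤ m * k := by
    rw [← ePm]; simp only [hp, hm]; linarith
  have hpy : p * Y * (z * (2 * z - 1)) ≤ k * (f * nQ S f z * (f - z)) := by
    have e : (w - z) * A₀ = (f - z) * nQ S f z := by rw [eA]; linear_combination he
    calc p * Y * (z * (2 * z - 1)) = p * (w * (2 * z - 1)) * A₀ := by
          simp only [hY]
          have : z ≠ 0 := by linarith
          field_simp
      _ ≤ m * k * (w * (2 * z - 1)) * A₀ := by
          refine mul_le_mul_of_nonneg_right (mul_le_mul_of_nonneg_right hpk ?_) hA0.le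
          exact mul_nonneg (by linarith) (by linarith)
      _ = k * A₀ * (m * w * (2 * z - 1)) := by ring
      _ ≤ k * A₀ * (f * (w - z)) := mul_le_mul_of_nonneg_left (by simp only [hm]; linarith) (by positivity)
      _ = k * (f * ((w - z) * A₀)) := by ring
      _ = k * (f * nQ S f z * (f - z)) := by rw [e]; ring
  have hzz : 0 < z * (2 * z - 1) := mul_pos (by linarith) (by linarith)
  have hB1 : p * Y < k * B := by
    refine lt_of_mul_lt_mul_right (hpy.trans_lt ?_) hzz.le
    have := mul_lt_mul_of_pos_left c1 hk0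
    simp only [hB]; linarith
  have hB2 : p * Y < k * (Y - B) := by
    refine lt_of_mul_lt_mul_right (hpy.trans_lt ?_) hzz.le
    have := mul_lt_mul_of_pos_left c2 hk0
    have : k * (z * (2 * z - 1)) * (A₀ - B) ≤ k * (z * (2 * z - 1)) * (Y - B) := by gcongr
    simp only [hB, hA] at *
    linarith
  have key : k * dH2 S f x z w = (m * k - p) * (k * (Y - B) - p * Y) + p * (k * B - p * Y) := by
    have e1 : dZ S f x z w = m * k / 2 - p := by
      unfold dZ; rw [← ePm]; simp only [hm, hp]; ring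
    have e2 : dW S f x z w = w / z * (m * k - (1 + m) * p) := by
      unfold dW; simp only [hm, hp, hk]; ring
    unfold dH2
    rw [e1, e2]
    simp only [hY, hB, eA]
    ring
  have hpos : 0 < k * dH2 S f x z w := by
    rw [key]
    rcases hpk.lt_or_eq with hlt | heq
    · exact add_pos_of_pos_of_nonneg (mul_pos (sub_pos.2 hlt) (sub_pos.2 hB2)) (mul_nonneg hp0 (sub_pos.2 hB1).le)
    · rw [heq, sub_self, zero_mul, zero_add]
      rw [heq] at hB1
      exact mul_pos (mul_pos hm0 hk0) (sub_pos.2 hB1)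
  exact (mul_pos_iff_of_pos_left hk0).1 hpos

end

end Vale.Agent.P100.Negative
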