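import Vale.Agent.P100.Negative.Cert
import Vale.Agent.P100.Negative.Sign
import Vale.Agent.P100.Ineq.Normal

/-!
# P100, `T ≤ 0`: the sign conditions of the certificate on the backward region

The region is given by the two backward invariants and the bound on `-x` from the range of the
ratio; the gap condition is read from the checked polynomial.
-/

namespace Vale.Agent.P100.Negative

open OrbitCert Ineq

noncomputable section

/-- The backward region, the centre included. -/
structure BackRegion (S f x z w : ℝ) : Prop where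
  S_gt : 3 < S
  half_lt_f : 1 / 2 < f
  f_lt_one : f < 1
  x_nonpos : x ≤ 0
  P_nonpos : nP S f z ≤ 0
  z_lt_w : z < w
  w_le_f : w ≤ f
  rmax : -x * w * (2 * z - 1) ≤ f * (w - z)
  H1 : 2 * x * nPm S f z w ≤ nP S f z
  H2 : (f - w) * nQ S f z ≤ 2 * (S + 2) * (1 - z) * (w - z)

variable {S f x z w : ℝ}

theorem BackRegion.gap_width (h : BackRegion S f x z w) :
    (S + 4) * (f - z) ≤ 2 * (2 * f - 1) := by
  have := h.P_nonpos; unfold nP at this; linarith

theorem BackRegion.two_z (h : BackRegion S f x z w) :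
    (2 * f - 1) * S ≤ (S + 4) * (2 * z - 1) := by
  have := h.P_nonpos; unfold nP at this; linarith

theorem BackRegion.half_lt_z (h : BackRegion S f x z w) : 1 / 2 < z := by
  by_contra hn
  push Not at hn
  have h1 := h.two_z
  have : (S + 4) * (2 * z - 1) ≤ 0 :=
    mul_nonpos_of_nonneg_of_nonpos (by linarith [h.S_gt]) (by linarith)
  have : 0 < (2 * f - 1) * S := mul_pos (by linarith [h.half_lt_f]) (by linarith [h.S_gt])
  linarith

theorem BackRegion.e_pos (h : BackRegion S f x z w) : 0 < w + z - 1 := by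
  linarith [h.half_lt_z, h.z_lt_w]

/-- `u / w ≤ (f - z) / f`. -/
theorem BackRegion.ratio_le (h : BackRegion S f x z w) : (w - z) * f ≤ (f - z) * w := by
  linarith [mul_nonneg (show 0 ≤ z by linarith [h.half_lt_z]) (sub_nonneg.2 h.w_le_f)]

theorem BackRegion.x_le (h : BackRegion S f x z w) : -x * S ≤ 2 := by
  have hf : 0 < f := by linarith [h.half_lt_f]
  have hw : 0 < w := by linarith [h.half_lt_z, h.z_lt_w]
  have hE : 0 < 2 * f - 1 := by linarith [h.half_lt_f]
  have hS4 : 0 < S + 4 := by linarith [h.S_gt]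
  have h1 : -x * (2 * z - 1) ≤ f - z := by
    refine le_of_mul_le_mul_right ?_ hw
    calc -x * (2 * z - 1) * w = -x * w * (2 * z - 1) := by ring
      _ ≤ f * (w - z) := h.rmax
      _ ≤ (f - z) * w := by linarith [h.ratio_le]
  have hx : 0 ≤ -x := by linarith [h.x_nonpos]
  refine le_of_mul_le_mul_right ?_ hE
  calc -x * S * (2 * f - 1) = -x * ((2 * f - 1) * S) := by ring
    _ ≤ -x * ((S + 4) * (2 * z - 1)) := mul_le_mul_of_nonneg_left h.two_z hx
    _ = (S + 4) * (-x * (2 * z - 1)) := by ring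
    _ ≤ (S + 4) * (f - z) := mul_le_mul_of_nonneg_left h1 hS4.le
    _ ≤ 2 * (2 * f - 1) := h.gap_width

/-- More than two thirds of the width remains. -/
theorem BackRegion.two_thirds (h : BackRegion S f x z w) :
    4 * (2 * f - 1) < 3 * ((S + 4) * (f - z)) := by
  by_contra hn
  push Not at hn
  have hS := h.S_gt
  have hf0 : 0 < f := by linarith [h.half_lt_f]
  have hw : 0 < w := by linarith [h.half_lt_z, h.z_lt_w]
  have hz : 0 < 2 * z - 1 := by linarith [h.half_lt_z]
  have hz1 : 0 ≤ 1 - z := by linarith [h.z_lt_w, h.w_le_f, h.f_lt_one]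
  have hu : 0 ≤ w - z := by linarith [h.z_lt_w]
  set E := 2 * f - 1 with hE
  have hE0 : 0 < E := by simp only [hE]; linarith [h.half_lt_f]
  set D := f - z with hD
  have hD0 : 0 ≤ D := by simp only [hD]; linarith [h.z_lt_w, h.w_le_f]
  have h1 : -nP S f z * (f * (2 * z - 1)) ≤ 2 * (S + 2) * (1 - z) * D ^ 2 := by
    have a : -nP S f z ≤ 2 * -x * nPm S f z w := by linarith [h.H1]
    have e : 2 * -x * nPm S f z w * (f * w * (2 * z - 1))
        = 2 * (S + 2) * (1 - z) * (w - z) * (-x * w * (2 * z - 1)) := by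
      unfold nPm; field_simp
    refine le_of_mul_le_mul_right ?_ hw
    calc -nP S f z * (f * (2 * z - 1)) * w = -nP S f z * (f * w * (2 * z - 1)) := by ring
      _ ≤ 2 * -x * nPm S f z w * (f * w * (2 * z - 1)) :=
          mul_le_mul_of_nonneg_right a (by positivity)
      _ ≤ 2 * (S + 2) * (1 - z) * (w - z) * (f * (w - z)) := by
          rw [e]; exact mul_le_mul_of_nonneg_left h.rmax (by positivity)
      _ = 2 * (S + 2) * (1 - z) * ((w - z) * ((w - z) * f)) := by ring
      _ ≤ 2 * (S + 2) * (1 - z) * (D * (D * w)) := by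
          refine mul_le_mul_of_nonneg_left (mul_le_mul ?_ h.ratio_le (by positivity) hD0) (by positivity)
          simp only [hD]; linarith [h.w_le_f]
      _ = 2 * (S + 2) * (1 - z) * D ^ 2 * w := by ring
  have hP : 2 * E / 3 ≤ -nP S f z := by
    have : -nP S f z = 2 * E - (S + 4) * D := by simp only [hE, hD]; unfold nP; ring
    linarith
  have h2z : E * (3 * S + 4) ≤ 3 * ((S + 4) * (2 * z - 1)) := by
    simp only [hE, hD] at hn ⊢; linarith
  have hz2 : (S + 4) * (1 - z) ≤ (S + 4) / 2 := by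
    rw [show (S + 4) / 2 = (S + 4) * (1 / 2) by ring]
    exact mul_le_mul_of_nonneg_left (by linarith [h.half_lt_z]) (by linarith)
  have hL : E ^ 2 * ((3 * S + 4) * (S + 4) ^ 2) / 9
      ≤ -nP S f z * (f * (2 * z - 1)) * (S + 4) ^ 3 := by
    have a : 2 * E / 3 * (1 / 2 * (E * (3 * S + 4) / 3)) ≤
        -nP S f z * (f * ((S + 4) * (2 * z - 1))) :=
      mul_le_mul hP (mul_le_mul h.half_lt_f.le (by linarith) (by positivity) hf0.le) (by positivity)
        (by linarith [show (0 : ℝ) ≤ 2 * E / 3 by positivity])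
    calc E ^ 2 * ((3 * S + 4) * (S + 4) ^ 2) / 9
        = 2 * E / 3 * (1 / 2 * (E * (3 * S + 4) / 3)) * (S + 4) ^ 2 := by ring
      _ ≤ -nP S f z * (f * ((S + 4) * (2 * z - 1))) * (S + 4) ^ 2 :=
          mul_le_mul_of_nonneg_right a (sq_nonneg _)
      _ = _ := by ring
  have hR : 2 * (S + 2) * (1 - z) * D ^ 2 * (S + 4) ^ 3 ≤ E ^ 2 * (16 * (S + 2) * (S + 4)) / 9 := by
    calc 2 * (S + 2) * (1 - z) * D ^ 2 * (S + 4) ^ 3
        = 2 * (S + 2) * ((S + 4) * (1 - z)) * ((S + 4) * D) ^ 2 := by ring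
      _ ≤ 2 * (S + 2) * ((S + 4) / 2) * (4 * E / 3) ^ 2 := by
          refine mul_le_mul (mul_le_mul_of_nonneg_left hz2 (by linarith))
            (pow_le_pow_left₀ (by positivity) (by linarith) 2) (sq_nonneg _) (by positivity)
      _ = _ := by ring
  have h3 := mul_le_mul_of_nonneg_right h1 (pow_nonneg (show (0 : ℝ) ≤ S + 4 by linarith) 3)
  have h4 : (3 * S + 4) * (S + 4) * (S + 4) ≤ 16 * (S + 2) * (S + 4) := by
    refine le_of_mul_le_mul_left ?_ (pow_pos hE0 2)
    calc E ^ 2 * ((3 * S + 4) * (S + 4) * (S + 4)) = E ^ 2 * ((3 * S + 4) * (S + 4) ^ 2) := by ring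
      _ ≤ E ^ 2 * (16 * (S + 2) * (S + 4)) := by linarith
  have h5 := le_of_mul_le_mul_right h4 (by linarith : (0 : ℝ) < S + 4)
  have : 0 < (S - 3) * S := mul_pos (by linarith) (by linarith)
  linarith

/-- The share of `f - w` in `f - z` is below the bound of the checked box. -/
theorem share_lt (hS : 3 < S) (hf : 1 / 2 < f) (hf1 : f < 1) :
    60 * (S + 2) * ((1 - f) * S + 2)
      < ((21 - 15 * (2 * f - 1)) * (S + 4) + 30 + 70 * (2 * f - 1)) * (2 * S + 2 - S * f) := by
  set σ := S - 3 with hσ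
  have hσ0 : 0 < σ := by simp only [hσ]; linarith
  have hg : 0 ≤ (f - 1 / 2) * (1 - f) := mul_nonneg (by linarith) (by linarith)
  have hs : S = σ + 3 := by simp only [hσ]; ring
  rw [hs]
  nlinarith [mul_nonneg (mul_nonneg hσ0.le hσ0.le) hg, mul_nonneg hσ0.le hg, hg,
    mul_nonneg hσ0.le (show 0 ≤ f - 1 / 2 by linarith),
    mul_nonneg hσ0.le (show 0 ≤ 1 - f by linarith),
    mul_pos hσ0 hσ0, mul_nonneg (mul_nonneg hσ0.le hσ0.le) (show 0 ≤ f - 1 / 2 by linarith),
    mul_nonneg (mul_nonneg hσ0.le hσ0.le) (show 0 ≤ 1 - f by linarith)]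

theorem BackRegion.share (h : BackRegion S f x z w) :
    30 * (f - w) * (S + 4)
      < ((21 - 15 * (2 * f - 1)) * (S + 4) + 30 + 70 * (2 * f - 1)) * (f - z) := by
  have hS := h.S_gt
  have hk := share_lt hS h.half_lt_f h.f_lt_one
  have hc : 0 < 2 * S + 2 - S * f := by
    have := mul_lt_mul_of_pos_left h.f_lt_one (show (0 : ℝ) < S by linarith)
    linarith
  have hD : 0 < f - z := by linarith [h.z_lt_w, h.w_le_f]
  have h1 : (f - w) * (2 * S + 2 - S * f) ≤ 2 * (S + 2) * (1 - z) * (f - z) := by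
    have := h.H2; unfold nQ at this
    linarith
  have h2 : (S + 4) * (1 - z) ≤ (1 - f) * S + 2 := by
    have := h.P_nonpos; unfold nP at this; linarith
  refine lt_of_mul_lt_mul_right ?_ hc.le
  calc 30 * (f - w) * (S + 4) * (2 * S + 2 - S * f)
      = 30 * (S + 4) * ((f - w) * (2 * S + 2 - S * f)) := by ring
    _ ≤ 30 * (S + 4) * (2 * (S + 2) * (1 - z) * (f - z)) :=
        mul_le_mul_of_nonneg_left h1 (by linarith)
    _ = 60 * (S + 2) * ((S + 4) * (1 - z)) * (f - z) := by ring
    _ ≤ 60 * (S + 2) * ((1 - f) * S + 2) * (f - z) :=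
        mul_le_mul_of_nonneg_right (mul_le_mul_of_nonneg_left h2 (by linarith)) hD.le
    _ < _ := by
        rw [mul_right_comm _ (f - z)]
        exact mul_lt_mul_of_pos_right hk hD

/-- The parameter of `(a + b τ) / (1 + τ)`-type maps onto `[0, 1 / c)`. -/
theorem map_zero {c : ℤ} {y : ℝ} (hc : (0 : ℝ) < c) (hy : 0 ≤ y) (hy1 : y * c < 1) :
    0 ≤ y * c / (1 - y * c) ∧ (⟨0, 1, c⟩ : Ax).map (y * c / (1 - y * c)) = y := by
  have h1 : 0 < 1 - y * c := by linarith
  refine ⟨div_nonneg (by positivity) h1.le, ?_⟩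
  simp only [Ax.map]
  push_cast
  field_simp
  ring

theorem map_s {y : ℝ} (hy : 2 / 3 < y) (hy1 : y ≤ 1) :
    0 ≤ 3 * (1 - y) / (3 * y - 2) ∧ (⟨3, 2, 3⟩ : Ax).map (3 * (1 - y) / (3 * y - 2)) = y := by
  have h1 : 0 < 3 * y - 2 := by linarith
  refine ⟨div_nonneg (by linarith) h1.le, ?_⟩
  simp only [Ax.map]
  push_cast
  field_simp
  ring

/-- The scaled variables of a point of the region. -/
def scaled (S f x z w : ℝ) : Pt :=
  ⟨2 * f - 1, 1 / (S + 4), -x * (S + 4) / (2 + 19 / (S + 4)), (S + 4) * (f - z) / (2 * (2 * f - 1)),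
    (f - w) * (S + 4) / ((f - z) * ((21 - 15 * (2 * f - 1)) * (S + 4) + 30 + 70 * (2 * f - 1)))⟩

theorem BackRegion.cH_nonneg (h : BackRegion S f x z w) : 0 ≤ Ex.cH.val (scaled S f x z w) := by
  have hS := h.S_gt
  have hS4 : 0 < S + 4 := by linarith
  have hE : 0 < 2 * f - 1 := by linarith [h.half_lt_f]
  have hD : 0 < f - z := by linarith [h.z_lt_w, h.w_le_f]
  have hC : 0 < (21 - 15 * (2 * f - 1)) * (S + 4) + 30 + 70 * (2 * f - 1) := by
    have : 0 < (21 - 15 * (2 * f - 1)) * (S + 4) := mul_pos (by linarith [h.f_lt_one]) hS4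
    linarith
  obtain ⟨aE, eE⟩ := map_zero (c := 1) (y := 2 * f - 1) (by norm_num) hE.le
    (by push_cast; linarith [h.f_lt_one])
  obtain ⟨ah, eh⟩ := map_zero (c := 7) (y := 1 / (S + 4)) (by norm_num) (by positivity)
    (by push_cast; rw [div_mul_eq_mul_div, div_lt_one hS4]; linarith)
  have ht : -x * (S + 4) < 2 + 19 / (S + 4) := by
    have h1 : -x * (S + 4) * S ≤ 2 * (S + 4) := by
      calc -x * (S + 4) * S = -x * S * (S + 4) := by ring
        _ ≤ 2 * (S + 4) := mul_le_mul_of_nonneg_right h.x_le hS4.le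
    have h2 : 2 * (S + 4) < (2 + 19 / (S + 4)) * S := by
      rw [show (2 + 19 / (S + 4)) * S = 2 * S + 19 * S / (S + 4) by ring, ← sub_lt_iff_lt_add',
        lt_div_iff₀ hS4]
      linarith
    exact lt_of_mul_lt_mul_right (h1.trans_lt h2) (by linarith)
  obtain ⟨at_, et⟩ := map_zero (c := 1) (y := -x * (S + 4) / (2 + 19 / (S + 4))) (by norm_num)
    (div_nonneg (mul_nonneg (by linarith [h.x_nonpos]) hS4.le) (by positivity))
    (by push_cast; rw [mul_one, div_lt_one (by positivity)]; exact ht)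
  obtain ⟨as, es⟩ := map_s (y := (S + 4) * (f - z) / (2 * (2 * f - 1)))
    (by rw [lt_div_iff₀ (by linarith)]; linarith [h.two_thirds])
    (by rw [div_le_one (by linarith)]; exact h.gap_width)
  obtain ⟨am, em⟩ := map_zero (c := 30)
    (y := (f - w) * (S + 4) / ((f - z) * ((21 - 15 * (2 * f - 1)) * (S + 4) + 30 + 70 * (2 * f - 1))))
    (by norm_num) (div_nonneg (mul_nonneg (sub_nonneg.2 h.w_le_f) hS4.le) (by positivity))
    (by push_cast; rw [div_mul_eq_mul_div, div_lt_one (by positivity)]; linarith [h.share])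
  have key := _root_.Vale.Agent.P100.Negative.cH_nonneg (τ := ⟨_, _, _, _, _⟩) aE ah at_ as am
  simp only [Box.map, box, eE, eh, et, es, em] at key
  exact key

/-- The checked polynomial in terms of the point. -/
theorem BackRegion.cH_eq (h : BackRegion S f x z w) :
    Ex.cH.val (scaled S f x z w) = 128 * (1 / (S + 4)) ^ 2 * (w * (w + z)
        * (4 * (certPoint S f x z w).n₀ * (certPoint S f x z w).π₀
          - w * (certPoint S f x z w).L ^ 2))
      - (2 * f - 1) ^ 4 * (1 / (S + 4)) ^ 2 := by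
  have hS4 : S + 4 ≠ 0 := by linarith [h.S_gt]
  have hS : S ≠ 0 := by linarith [h.S_gt]
  have hN : S + 2 ≠ 0 := by linarith [h.S_gt]
  have hf : f ≠ 0 := by linarith [h.half_lt_f]
  have hE : 2 * f - 1 ≠ 0 := by linarith [h.half_lt_f]
  have hD : f - z ≠ 0 := by linarith [h.z_lt_w, h.w_le_f]
  have hw : w ≠ 0 := by linarith [h.half_lt_z, h.z_lt_w]
  have ha : w + z ≠ 0 := by linarith [h.half_lt_z, h.z_lt_w]
  have hC : (21 - 15 * (2 * f - 1)) * (S + 4) + 30 + 70 * (2 * f - 1) ≠ 0 := by
    have : 0 < (21 - 15 * (2 * f - 1)) * (S + 4) :=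
      mul_pos (by linarith [h.f_lt_one]) (by linarith [h.S_gt])
    linarith [h.half_lt_f]
  have hX : 2 + 19 / (S + 4) ≠ 0 := by
    have : 0 < 19 / (S + 4) := div_pos (by norm_num) (by linarith [h.S_gt])
    linarith
  set Cc := (21 - 15 * (2 * f - 1)) * (S + 4) + 30 + 70 * (2 * f - 1) with hCc
  set P := scaled S f x z w with hP
  set i := 1 / (S + 4) with hi
  have hii : i * (S + 4) = 1 := by simp only [hi]; field_simp
  have vX : Ex.cX.val P = -x * (S + 4) := by
    simp only [hP, Ex.cX, Ex.val, scaled]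
    push_cast
    rw [mul_one_div, div_mul_cancel₀ _ hX]
  have vR : Ex.cR.val P = (S + 4) * (f - w) / (2 * f - 1) := by
    simp only [hP, Ex.cR, Ex.val, scaled]
    push_cast
    rw [← hCc]
    have e : (21 : ℝ) + -1 * (15 * (2 * f - 1)) + 1 / (S + 4) * (30 + 70 * (2 * f - 1)) = Cc / (S + 4) := by
      simp only [hCc]; field_simp; ring
    rw [e]
    field_simp
  have v1 : Ex.cW1.val P = 2 * w := by
    simp only [Ex.cW1, Ex.cF, Ex.val, vR]
    simp only [hP, scaled]
    push_cast
    field_simp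
    ring
  have v2 : Ex.cZ.val P = 2 * z := by
    simp only [Ex.cZ, Ex.cF, Ex.val, hP, scaled]
    push_cast
    field_simp
    ring
  have v3 : Ex.cW.val P = 2 * (f + (2 * f - 1) * (1 - f) + (2 * f - 1) * (1 - x)) := by
    simp only [Ex.cW, Ex.cF, Ex.cG, Ex.val, vX]
    simp only [hP, scaled]
    push_cast
    field_simp
    ring
  have vA : Ex.cA.val P = S * i := by
    simp only [Ex.cA, Ex.val, hP, scaled, hi]
    push_cast
    field_simp
    ring
  have vd : Ex.cd.val P = 4 * f * (1 - f) := by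
    simp only [Ex.cd, Ex.cF, Ex.cG, Ex.val, hP, scaled]
    push_cast
    ring
  have vh : Ex.vh.val P = i := rfl
  have vE : Ex.vE.val P = 2 * f - 1 := rfl
  have ve : Ex.ce.val P = 2 * (w + z - 1) := by
    simp only [Ex.ce, Ex.val, v1, v2]; push_cast; ring
  have vv : Ex.cv.val P = 2 * (certPoint S f x z w).v := by
    simp only [Ex.cv, Ex.val, v1, v3, certPoint_v, cV, cH, cEps]; push_cast; ring
  have vk : Ex.ck.val P = 2 * i * (S * z - S * (1 - f)) := by
    simp only [Ex.ck, Ex.cG, Ex.val, vA, v2, show P.E = 2 * f - 1 from vE]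
    push_cast
    ring
  have vl : Ex.cl.val P = 4 * i * (certPoint S f x z w).l := by
    simp only [Ex.cl, Ex.val, ve, vv, vk, vA, vd, v2, v3]
    simp only [show P.h = i from vh, Point.l, Point.k, Point.v, Point.e, certPoint, cEps]
    push_cast
    ring
  have vJ : Ex.cJ.val P = -(2 * i * (S * f * (w - z) * (certPoint S f x z w).Dw)) := by
    simp only [Ex.cJ, Ex.cF, Ex.val, vA, vX, vR, v1]
    simp only [hP, scaled, certPoint, hi, cEps]
    push_cast
    field_simp
    ring
  have vL : Ex.cL.val P = 8 * i * (w * (certPoint S f x z w).L) := by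
    simp only [Ex.cL, Ex.val, vl, vJ, v1]
    simp only [Point.L, certPoint, cEps]
    push_cast
    field_simp
    ring
  have vT : Ex.cT.val P = 4 * i * (certPoint S f x z w).aux := by
    simp only [Ex.cT, Ex.cF, Ex.cG, Ex.val, ve, v2, v3, vd, vA]
    simp only [hP, scaled, hi, Point.aux, Point.e, Point.M, certPoint, cEps]
    push_cast
    field_simp
    ring
  have vP : Ex.cP.val P
      = 16 * i ^ 2 * (4 * (S + 2) * (w + z) * (certPoint S f x z w).π₀) := by
    simp only [Ex.cP, Ex.cF, Ex.cG, Ex.val, ve, v1, v2, v3, vd, vA, vT]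
    simp only [hP, scaled, hi, Point.π₀, Point.e, Point.dim, certPoint, cEps]
    rw [show 1 + (w + z - 1) = w + z by ring, show S * f + S * (1 - f) + 2 = S + 2 by ring]
    push_cast
    field_simp
    ring
  simp only [Ex.cH, Ex.val, ve, vv, vP, vL, v1, show P.h = i from vh, show P.E = 2 * f - 1 from vE]
  simp only [Point.n₀, certPoint_e, certPoint_dim]
  push_cast
  ring

/-- The gap condition, strictly. -/
theorem BackRegion.gap_pos (h : BackRegion S f x z w) :
    0 < 4 * (certPoint S f x z w).n₀ * (certPoint S f x z w).π₀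
      - w * (certPoint S f x z w).L ^ 2 := by
  have h0 := h.cH_nonneg
  rw [h.cH_eq] at h0
  have hpos : 0 < (2 * f - 1) ^ 4 * (1 / (S + 4)) ^ 2 := by
    have : 0 < 2 * f - 1 := by linarith [h.half_lt_f]
    have : 0 < S + 4 := by linarith [h.S_gt]
    positivity
  by_contra hn
  push Not at hn
  have : 128 * (1 / (S + 4)) ^ 2 * (w * (w + z) * (4 * (certPoint S f x z w).n₀
      * (certPoint S f x z w).π₀ - w * (certPoint S f x z w).L ^ 2)) ≤ 0 := by
    refine mul_nonpos_of_nonneg_of_nonpos (by positivity) ?_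
    refine mul_nonpos_of_nonneg_of_nonpos (mul_nonneg ?_ ?_) hn <;>
      linarith [h.half_lt_z, h.z_lt_w]
  linarith

theorem BackRegion.v_pos (h : BackRegion S f x z w) : 0 < (certPoint S f x z w).v := by
  rw [certPoint_v]; unfold cV cH cEps
  have : 0 < (2 * f - 1) * (1 - f + (1 - x)) :=
    mul_pos (by linarith [h.half_lt_f]) (by linarith [h.x_nonpos, h.f_lt_one])
  linarith [h.w_le_f]

theorem BackRegion.n_pos (h : BackRegion S f x z w) : 0 < (certPoint S f x z w).n₀ := by
  rw [Point.n₀, certPoint_e, certPoint_dim]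
  exact mul_pos (mul_pos (by linarith [h.S_gt]) h.e_pos) h.v_pos

theorem BackRegion.pi_pos (h : BackRegion S f x z w) : 0 < (certPoint S f x z w).π₀ := by
  have h1 := h.gap_pos
  have h2 : 0 ≤ w * (certPoint S f x z w).L ^ 2 :=
    mul_nonneg (by linarith [h.half_lt_z, h.z_lt_w]) (sq_nonneg _)
  exact pos_of_mul_pos_right (show 0 < 4 * (certPoint S f x z w).n₀ * (certPoint S f x z w).π₀ by
    linarith) (by linarith [h.n_pos])

theorem BackRegion.iii_pos (h : BackRegion S f x z w) : 0 < (certPoint S f x z w).iii := by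
  have hS := h.S_gt
  have hf := h.half_lt_f
  set E := 2 * f - 1 with hE
  have hE0 : 0 < E := by simp only [hE]; linarith
  set m := -x * S with hm
  have hm0 : 0 ≤ m := mul_nonneg (by linarith [h.x_nonpos]) (by linarith)
  have hm2 : m ≤ 2 := h.x_le
  set r := f - w with hr
  have hr0 : 0 ≤ r := by simp only [hr]; linarith [h.w_le_f]
  have hr1 : (S + 4) * r ≤ 2 * E :=
    (mul_le_mul_of_nonneg_left (by linarith [h.z_lt_w]) (by linarith)).trans h.gap_width
  set W := f + E * (1 - f) + E * (1 - x) with hW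
  have hx1 : -x * 3 ≤ 2 := (mul_le_mul_of_nonneg_left hS.le (by linarith [h.x_nonpos])).trans hm2
  have hW0 : 0 ≤ W := by
    have : 0 ≤ E * (1 - f) := mul_nonneg hE0.le (by linarith [h.f_lt_one])
    have : 0 ≤ E * (1 - x) := mul_nonneg hE0.le (by linarith [h.x_nonpos])
    linarith
  have hW1 : W ≤ f + 13 / 6 * E := by
    have h1 : E * (1 - f + (1 - x)) ≤ E * (13 / 6) :=
      mul_le_mul_of_nonneg_left (by linarith) hE0.le
    simp only [hW]; linarith
  have e : (certPoint S f x z w).iii = S * f * E * (2 * (2 - f + (1 - x)) - 2 * (1 - f))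
      - m * (W * ((S + 2) * r - 2 * f * E) - 2 * f * E
        + -x * E * ((S + 2) * r - 2 * f)) := by
    simp only [Point.iii, Point.dim, certPoint, cEps, hW, hm, hr, hE]
    field_simp
    ring
  have hb : W * ((S + 2) * r - 2 * f * E) - 2 * f * E + -x * E * ((S + 2) * r - 2 * f) ≤ W * E := by
    have h1 : (S + 2) * r - 2 * f * E ≤ E := by
      have : 1 * E ≤ 2 * f * E := mul_le_mul_of_nonneg_right (by linarith) hE0.le
      linarith
    have h3 : -x * E * ((S + 2) * r - 2 * f) ≤ 2 * f * E := by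
      have ha : (S + 2) * r - 2 * f ≤ 2 * f := by linarith
      calc -x * E * ((S + 2) * r - 2 * f) ≤ -x * E * (2 * f) :=
            mul_le_mul_of_nonneg_left ha (mul_nonneg (by linarith [h.x_nonpos]) hE0.le)
        _ = -x * (2 * f * E) := by ring
        _ ≤ 1 * (2 * f * E) := mul_le_mul_of_nonneg_right (by linarith) (by positivity)
        _ = 2 * f * E := one_mul _
    linarith [mul_le_mul_of_nonneg_left h1 hW0]
  rw [e]
  have hc : S * f * E * 4 ≤ S * f * E * (2 * (2 - f + (1 - x)) - 2 * (1 - f)) :=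
    mul_le_mul_of_nonneg_left (by linarith [h.x_nonpos]) (by positivity)
  have hd : m * (W * ((S + 2) * r - 2 * f * E) - 2 * f * E
      + -x * E * ((S + 2) * r - 2 * f)) ≤ 2 * (W * E) :=
    (mul_le_mul_of_nonneg_left hb hm0).trans (mul_le_mul_of_nonneg_right hm2 (by positivity))
  have : 2 * (W * E) < S * f * E * 4 := by
    have h1 : 2 * W < S * f * 4 := by
      have : 3 * f * 4 < S * f * 4 := by
        have := mul_lt_mul_of_pos_right hS (show (0 : ℝ) < f by linarith)
        linarith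
      simp only [hE] at hW1
      linarith
    linarith [mul_lt_mul_of_pos_right h1 hE0]
  linarith

end

end Vale.Agent.P100.Negative
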