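import Vale.Agent.P100.Negative.Invariant
import Vale.Agent.P100.Negative.Region
import Vale.Agent.P100.OrbitCert.Endpoint
import Vale.Agent.P100.OrbitCert.MarginOf

/-!
# P100, `T ≤ 0`: the signs of the certificate on the backward part of the critical orbit
-/

namespace Vale.Agent.P100.Negative

open Set Filter Topology Orbit OrbitCert

noncomputable section

theorem regPoint_eq_certPoint (S f x z w : ℝ) :
    regPoint S f x z w = Ineq.certPoint S f x z w := by
  simp only [regPoint, Ineq.certPoint, Ineq.cEps, Point.mk.injEq, true_and]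
  refine ⟨?_, ?_, ?_, ?_⟩ <;> ring

theorem BackRegion.good {S f x z w : ℝ} (h : BackRegion S f x z w) :
    (regPoint S f x z w).Good := by
  rw [regPoint_eq_certPoint]
  exact ⟨by rw [Ineq.certPoint_e]; exact h.e_pos, h.v_pos, h.pi_pos, h.iii_pos,
    sub_pos.1 h.gap_pos⟩

variable {N p q T₁ T₀ T : ℝ} {U V : ℝ → ℝ}

theorem backRegion_orbit (h5 : 5 < N) (s : Setting N p q T₁ T₀ U V) (hT : T ∈ Icc T₀ 0) :
    BackRegion (N - 2) (fα N q) (qX N p U V T / (N - 2)) (oZ N p q U V T) (oW N p q U V T) := by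
  have hS : 3 < N - 2 := by linarith
  have hT1 : T₁ < T := s.orbit.T₁_lt.trans_le hT.1
  obtain ⟨hf, hf1⟩ := s.fα_mem
  have ef : oF N q = fα N q := by unfold oF fα cα; rfl
  rcases hT.2.lt_or_eq with h0 | h0
  · have h := negRegion s.two_lt s.p_pos s.q_pos s.orbit s.lt s.critical hS hT.1 h0
    rw [ef, ← s.oZ_eq_pZeta hT1 h0.ne, ← s.oW_eq_pW hT1 h0.ne] at h
    exact ⟨hS, hf, hf1, h.x_neg.le, h.P_nonpos, s.ζ_lt hT.1, h.w_lt_f.le, h.rmax, h.zeta_barrier,
      h.w_barrier⟩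
  · subst h0
    have hm : Ioi T₁ ∈ 𝓝 (0 : ℝ) := Ioi_mem_nhds s.lt_zero
    have hne : ∀ᶠ t in 𝓝[≠] (0 : ℝ), T₁ < t ∧ t ≠ 0 :=
      eventually_nhdsWithin_of_forall (s := ({0} : Set ℝ)ᶜ) (fun t ht => ht) |>.and
        (nhdsWithin_le_nhds hm) |>.mono fun t ht => ⟨ht.2, ht.1⟩
    have hz : oZ N p q U V 0 = zeta0 N p := by
      refine tendsto_nhds_unique (((s.continuousOn_oZ.continuousAt hm).tendsto).mono_left
        (nhdsWithin_le_nhds (s := {0}ᶜ))) ?_
      exact (s.orbit.tendsto_zeta_center s.two_lt s.p_pos s.q_pos s.lt s.critical).congr'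
        (hne.mono fun t ht => (s.oZ_eq_pZeta ht.1 ht.2).symm)
    have hw : Tendsto (pW N p q U V) (𝓝[≠] 0) (𝓝 (oW N p q U V 0)) :=
      (((s.continuousOn_oW.continuousAt hm).tendsto).mono_left
        (nhdsWithin_le_nhds (s := {0}ᶜ))).congr' (hne.mono fun t ht => s.oW_eq_pW ht.1 ht.2)
    have hc := center_bound s.two_lt s.p_pos s.q_pos s.orbit s.lt s.critical hw
    rw [ef, ← hz] at hc
    have hx : qX N p U V 0 / (N - 2) = 0 := by simp [qX]
    have hP : nP (N - 2) (fα N q) (oZ N p q U V 0) = 0 := by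
      rw [hz, ← ef, ← eP s.two_lt s.p_pos s.q_pos s.lt s.critical, sub_self, mul_zero]
    have hzw := s.ζ_lt hT.1
    have hwf : oW N p q U V 0 ≤ fα N q := s.w₁_le hT.1
    refine ⟨hS, hf, hf1, hx.le, hP.le, hzw, hwf, ?_, ?_, ?_⟩
    · rw [hx]
      simp only [neg_zero, zero_mul]
      exact mul_nonneg (by linarith) (by linarith)
    · rw [hx, hP]; simp
    · have h1 : 0 ≤ N * (1 - oZ N p q U V 0) * (oW N p q U V 0 - oZ N p q U V 0) :=
        mul_nonneg (mul_nonneg s.N_pos.le (by linarith)) (by linarith)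
      linarith

/-- The three signs for nonpositive times. -/
theorem good_of_nonpos : ∀ N p q T₁ T₀ U V, 5 < N → Setting N p q T₁ T₀ U V → ∀ T ∈ Icc T₀ 0,
    (orbitPoint N p q U V (finalRule N q) T).Good := by
  intro N p q T₁ T₀ U V h5 s T hT
  rw [s.orbitPoint_eq]
  exact (backRegion_orbit h5 s hT).good

end

end Vale.Agent.P100.Negative
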